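import Mathlib
import Crest.Prelude.Def_DyadicTriangular

/-!
Row 72, dyadic part (S0097): definitions.

* `Lam n F₀ F₁ F₂ p q r`: discrete local form, level `n+1`, on the blocks with indices `p, q, r`;
* `IsBellman B`: what the linear algebra core (box inequality) has to deliver.
-/

set_option autoImplicit false

namespace Crest.Agent.R72

open Finset

/-- Haar sign on `{0, …, 2^(n+1) - 1}`. -/
def sg (n i : ℕ) : ℝ := if i < 2 ^ n then 1 else -1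

/-- The discrete local form at level `n + 1` of three infinite real matrices on the blocks
with indices `p, q, r`. -/
noncomputable def Lam (n : ℕ) (F₀ F₁ F₂ : ℕ → ℕ → ℝ) (p q r : ℕ) : ℝ :=
  ((2 : ℝ) ^ (n + 1))⁻¹ *
    ∑ i ∈ range (2 ^ (n + 1)), ∑ j ∈ range (2 ^ (n + 1)), ∑ l ∈ range (2 ^ (n + 1)),
      F₀ (2 ^ (n + 1) * p + i) (2 ^ (n + 1) * q + j) *
      F₁ (2 ^ (n + 1) * q + j) (2 ^ (n + 1) * r + l) *
      F₂ (2 ^ (n + 1) * r + l) (2 ^ (n + 1) * p + i) * (sg n i * sg n j * sg n l)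

/-- A Bellman functional for the discrete dyadic triangular form. -/
structure IsBellman (B : ℕ → (ℕ → ℕ → ℝ) → (ℕ → ℕ → ℝ) → (ℕ → ℕ → ℝ) → ℕ → ℕ → ℕ → ℝ) : Prop where
  nonneg : ∀ n F₀ F₁ F₂ p q r, 0 ≤ B n F₀ F₁ F₂ p q r
  base : ∀ F₀ F₁ F₂ p q r, B 0 F₀ F₁ F₂ p q r =
    (F₀ p q ^ 2 + F₂ r p ^ 2) ^ (3 / 2 : ℝ) + (F₁ q r ^ 2 + F₀ p q ^ 2) ^ (3 / 2 : ℝ) +
      (F₂ r p ^ 2 + F₁ q r ^ 2) ^ (3 / 2 : ℝ)
  step : ∀ n F₀ F₁ F₂ p q r, B (n + 1) F₀ F₁ F₂ p q r + |Lam n F₀ F₁ F₂ p q r| ≤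
    B n F₀ F₁ F₂ (2 * p) (2 * q) (2 * r) + B n F₀ F₁ F₂ (2 * p) (2 * q + 1) (2 * r + 1) +
    B n F₀ F₁ F₂ (2 * p + 1) (2 * q) (2 * r + 1) + B n F₀ F₁ F₂ (2 * p + 1) (2 * q + 1) (2 * r)

/-- Averages over the dyadic cells of side `2^-N` of the quarter plane (closed cells, as closed
balls of `ℝ × ℝ`). -/
noncomputable def cellAvg (N : ℕ) (F : ℝ × ℝ → ℝ) (i j : ℕ) : ℝ :=
  ⨍ z in Metric.closedBall ((((i : ℝ) + 1 / 2) / 2 ^ N, ((j : ℝ) + 1 / 2) / 2 ^ N) : ℝ × ℝ)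
    (1 / 2 / 2 ^ N), F z

/-- The step function with coefficients `a` on the cells of side `2^-N` (used on the quarter
plane). -/
noncomputable def stepFun (N : ℕ) (a : ℕ → ℕ → ℝ) (z : ℝ × ℝ) : ℝ :=
  a ⌊z.1 * 2 ^ N⌋₊ ⌊z.2 * 2 ^ N⌋₊

end Crest.Agent.R72
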