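import Mathlib

/-!
# Row 72, S5 (kernel decomposition on `ℤ`), part 0 (helper10): the pyramid `X`, the operators, the identities

Everything is in dual form: kernels are finitely supported `ℤ →₀ ℂ`, paired with `T : ℤ → ℂ`.
-/

set_option autoImplicit false

namespace Crest.Agent.R72.KZ

open Finset

/-- the pyramid: `X T k n = 8^{-k} ∑_{i,j,l<2^k} T (n 2^k - (2^k - 1) + i + j + l)` -/
noncomputable def X (T : ℤ → ℂ) : ℕ → ℤ → ℂ
  | 0, n => T n
  | k + 1, n => (X T k (2 * n - 1) + 3 * X T k (2 * n) + 3 * X T k (2 * n + 1) + X T k (2 * n + 2)) / 8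

/-- first differences -/
noncomputable def D (T : ℤ → ℂ) (k : ℕ) (m : ℤ) : ℂ := X T k m - X T k (m + 1)

/-- third differences -/
noncomputable def Hh (T : ℤ → ℂ) (k : ℕ) (m : ℤ) : ℂ :=
  (X T k m - 3 * X T k (m + 1) + 3 * X T k (m + 2) - X T k (m + 3)) / 8

/-- pairing -/
noncomputable def pr (c : ℤ →₀ ℂ) (F : ℤ → ℂ) : ℂ := c.sum fun m r => r * F m

theorem pr_eq (c : ℤ →₀ ℂ) (F : ℤ → ℂ) : pr c F = Finsupp.linearCombination ℂ F c := by
  simp [pr, Finsupp.linearCombination_apply]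

theorem pr_add (c d : ℤ →₀ ℂ) (F : ℤ → ℂ) : pr (c + d) F = pr c F + pr d F := by
  simp only [pr_eq, map_add]

theorem pr_sub (c d : ℤ →₀ ℂ) (F : ℤ → ℂ) : pr (c - d) F = pr c F - pr d F := by
  simp only [pr_eq, map_sub]

theorem pr_smul (a : ℂ) (c : ℤ →₀ ℂ) (F : ℤ → ℂ) : pr (a • c) F = a * pr c F := by
  simp only [pr_eq, map_smul, smul_eq_mul]

theorem pr_zero (F : ℤ → ℂ) : pr 0 F = 0 := by simp [pr]

theorem pr_sum {ι : Type*} (s : Finset ι) (c : ι → ℤ →₀ ℂ) (F : ℤ → ℂ) :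
    pr (∑ i ∈ s, c i) F = ∑ i ∈ s, pr (c i) F := by
  simp only [pr_eq, map_sum]

@[simp] theorem pr_single (p : ℤ) (r : ℂ) (F : ℤ → ℂ) : pr (Finsupp.single p r) F = r * F p := by
  simp [pr]

/-- extension of a map defined on the basis -/
noncomputable def ext (b : ℤ → ℤ →₀ ℂ) : (ℤ →₀ ℂ) →ₗ[ℂ] (ℤ →₀ ℂ) := Finsupp.linearCombination ℂ b

theorem ext_single (b : ℤ → ℤ →₀ ℂ) (p : ℤ) (r : ℂ) : ext b (Finsupp.single p r) = r • b p := by
  simp [ext]

/-- coarsening -/
noncomputable def co : (ℤ →₀ ℂ) →ₗ[ℂ] (ℤ →₀ ℂ) := ext fun p => Finsupp.single (p / 2) 1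

/-- error of the coarsening -/
noncomputable def eo : (ℤ →₀ ℂ) →ₗ[ℂ] (ℤ →₀ ℂ) := ext fun p =>
  Finsupp.single (2 * (p / 2)) (if p % 2 = 0 then 1 / 2 else - 1 / 2) +
    Finsupp.single (2 * (p / 2) - 1) (- 1 / 8) + Finsupp.single (2 * (p / 2) + 1) (1 / 8)

/-- averaging operator -/
noncomputable def Pb (p : ℤ) : ℤ →₀ ℂ :=
  if p % 2 = 0 then Finsupp.single (p / 2) (1 / 4) + Finsupp.single (p / 2 - 1) (1 / 4)
  else Finsupp.single (p / 2) (1 / 2)

noncomputable def P : (ℤ →₀ ℂ) →ₗ[ℂ] (ℤ →₀ ℂ) := ext Pb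

/-- the coefficients of the third differences -/
noncomputable def rb (p : ℤ) : ℤ →₀ ℂ :=
  if p % 2 = 0 then Finsupp.single (p - 3) (- 1 / 4) + Finsupp.single (p - 2) (- 6 / 4) +
    Finsupp.single (p - 1) (- 18 / 4) + Finsupp.single p (- 6 / 4) + Finsupp.single (p + 1) (- 1 / 4)
  else Finsupp.single (p - 2) (- 1 / 2) + Finsupp.single (p - 1) (- 3) + Finsupp.single p (- 1 / 2)

noncomputable def rh : (ℤ →₀ ℂ) →ₗ[ℂ] (ℤ →₀ ℂ) := ext rb

/-! ### Pairing identities -/

theorem pr_ext_induction {f g : (ℤ →₀ ℂ) → ℂ} (hf : ∀ c d, f (c + d) = f c + f d)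
    (hg : ∀ c d, g (c + d) = g c + g d) (hf0 : f 0 = 0) (hg0 : g 0 = 0)
    (h : ∀ p r, f (Finsupp.single p r) = g (Finsupp.single p r)) (c : ℤ →₀ ℂ) : f c = g c := by
  induction c using Finsupp.induction_linear with
  | zero => rw [hf0, hg0]
  | add c d hc hd => rw [hf, hg, hc, hd]
  | single p r => exact h p r

/-- (K2) -/
theorem pr_coarse (T : ℤ → ℂ) (k : ℕ) (c : ℤ →₀ ℂ) :
    pr c (X T k) = pr (co c) (X T (k + 1)) + pr (eo c) (D T k) := by
  refine pr_ext_induction (f := fun c => pr c (X T k))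
    (g := fun c => pr (co c) (X T (k + 1)) + pr (eo c) (D T k)) ?_ ?_ ?_ ?_ ?_ c
  · intro c d; exact pr_add _ _ _
  · intro c d; simp only [map_add, pr_add]; ring
  · exact pr_zero _
  · simp only [map_zero, pr_zero, add_zero]
  · intro p r
    simp only [co, eo, ext_single, pr_smul, pr_add, pr_single, D, X]
    rcases Int.emod_two_eq_zero_or_one p with h | h
    · obtain ⟨n, rfl⟩ : ∃ n, p = 2 * n := ⟨p / 2, by lia⟩
      have e : 2 * n / 2 = n := by lia
      rw [e, if_pos h]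
      have e2 : 2 * n - 1 + 1 = 2 * n := by ring
      have e3 : 2 * n + 1 + 1 = 2 * n + 2 := by ring
      rw [e2, e3]
      ring
    · obtain ⟨n, rfl⟩ : ∃ n, p = 2 * n + 1 := ⟨p / 2, by lia⟩
      have e : (2 * n + 1) / 2 = n := by lia
      rw [e, if_neg (by lia)]
      have e2 : 2 * n - 1 + 1 = 2 * n := by ring
      have e3 : 2 * n + 1 + 1 = 2 * n + 2 := by ring
      rw [e2, e3]
      ring

/-- (K3) -/
theorem pr_refine (T : ℤ → ℂ) (k : ℕ) (c : ℤ →₀ ℂ) :
    pr c (D T k) = pr (P c) (D T (k + 1)) + pr (rh c) (Hh T k) := by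
  refine pr_ext_induction (f := fun c => pr c (D T k))
    (g := fun c => pr (P c) (D T (k + 1)) + pr (rh c) (Hh T k)) ?_ ?_ ?_ ?_ ?_ c
  · intro c d; exact pr_add _ _ _
  · intro c d; simp only [map_add, pr_add]; ring
  · exact pr_zero _
  · simp only [map_zero, pr_zero, add_zero]
  · intro p r
    simp only [P, rh, ext_single, pr_smul, pr_single]
    rcases Int.emod_two_eq_zero_or_one p with h | h
    · obtain ⟨n, rfl⟩ : ∃ n, p = 2 * n := ⟨p / 2, by lia⟩
      rw [Pb, rb, if_pos h, if_pos h]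
      have e : 2 * n / 2 = n := by lia
      simp only [e, pr_add, pr_single, D, Hh, X]
      ring_nf
    · obtain ⟨n, rfl⟩ : ∃ n, p = 2 * n + 1 := ⟨p / 2, by lia⟩
      rw [Pb, rb, if_neg (by lia), if_neg (by lia)]
      have e : (2 * n + 1) / 2 = n := by lia
      simp only [e, pr_add, pr_single, D, Hh, X]
      ring_nf

/-! ### Pointwise formulas -/

theorem ext_apply_induction {b : ℤ → ℤ →₀ ℂ} {m : ℤ} {g : (ℤ →₀ ℂ) → ℂ}
    (hg : ∀ c d, g (c + d) = g c + g d) (hg0 : g 0 = 0)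
    (h : ∀ p r, r * b p m = g (Finsupp.single p r)) (c : ℤ →₀ ℂ) : ext b c m = g c := by
  refine pr_ext_induction (f := fun c => ext b c m) (g := g) ?_ hg ?_ hg0 ?_ c
  · intro c d; simp only [map_add, Finsupp.add_apply]
  · simp only [map_zero, Finsupp.zero_apply]
  · intro p r; rw [ext_single, Finsupp.smul_apply, smul_eq_mul, h]

theorem co_apply (c : ℤ →₀ ℂ) (n : ℤ) : co c n = c (2 * n) + c (2 * n + 1) := by
  refine ext_apply_induction (g := fun c => c (2 * n) + c (2 * n + 1)) ?_ ?_ ?_ c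
  · intro c d; simp only [Finsupp.add_apply]; ring
  · simp
  · intro p r
    simp only [Finsupp.single_apply]
    split_ifs <;> first | (exfalso; lia) | simp

theorem eo_apply_even (c : ℤ →₀ ℂ) (n : ℤ) : eo c (2 * n) = (c (2 * n) - c (2 * n + 1)) / 2 := by
  refine ext_apply_induction (g := fun c => (c (2 * n) - c (2 * n + 1)) / 2) ?_ ?_ ?_ c
  · intro c d; simp only [Finsupp.add_apply]; ring
  · simp
  · intro p r
    simp only [Finsupp.add_apply, Finsupp.single_apply]
    split_ifs <;> first | (exfalso; lia) | (simp; try ring)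

theorem eo_apply_odd (c : ℤ →₀ ℂ) (n : ℤ) :
    eo c (2 * n - 1) = (co c (n - 1) - co c n) / 8 := by
  rw [co_apply, co_apply]
  refine ext_apply_induction
    (g := fun c => ((c (2 * (n - 1)) + c (2 * (n - 1) + 1)) - (c (2 * n) + c (2 * n + 1))) / 8) ?_ ?_ ?_ c
  · intro c d; simp only [Finsupp.add_apply]; ring
  · simp
  · intro p r
    simp only [Finsupp.add_apply, Finsupp.single_apply]
    split_ifs <;> first | (exfalso; lia) | (simp; try ring)

theorem P_apply (c : ℤ →₀ ℂ) (m : ℤ) :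
    P c m = c (2 * m + 1) / 2 + c (2 * m) / 4 + c (2 * m + 2) / 4 := by
  refine ext_apply_induction
    (g := fun c => c (2 * m + 1) / 2 + c (2 * m) / 4 + c (2 * m + 2) / 4) ?_ ?_ ?_ c
  · intro c d; simp only [Finsupp.add_apply]; ring
  · simp
  · intro p r
    unfold Pb
    split_ifs with h
    · simp only [Finsupp.add_apply, Finsupp.single_apply]
      split_ifs <;> first | (exfalso; lia) | (simp; try ring)
    · simp only [Finsupp.single_apply]
      split_ifs <;> first | (exfalso; lia) | (simp; try ring)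

theorem rh_apply_even (c : ℤ →₀ ℂ) (q : ℤ) :
    rh c (2 * q) = -3 * c (2 * q + 1) - 3 / 2 * (c (2 * q) + c (2 * q + 2)) := by
  refine ext_apply_induction
    (g := fun c => -3 * c (2 * q + 1) - 3 / 2 * (c (2 * q) + c (2 * q + 2))) ?_ ?_ ?_ c
  · intro c d; simp only [Finsupp.add_apply]; ring
  · simp
  · intro p r
    unfold rb
    split_ifs with h
    · simp only [Finsupp.add_apply, Finsupp.single_apply]
      split_ifs <;> first | (exfalso; lia) | (simp; try ring)
    · simp only [Finsupp.add_apply, Finsupp.single_apply]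
      split_ifs <;> first | (exfalso; lia) | (simp; try ring)

theorem rh_apply_odd (c : ℤ →₀ ℂ) (q : ℤ) :
    rh c (2 * q + 1) = - (c (2 * q + 1) + c (2 * q + 3)) / 2 - (c (2 * q + 4) + c (2 * q)) / 4
      - 9 / 2 * c (2 * q + 2) := by
  refine ext_apply_induction
    (g := fun c => - (c (2 * q + 1) + c (2 * q + 3)) / 2 - (c (2 * q + 4) + c (2 * q)) / 4
      - 9 / 2 * c (2 * q + 2)) ?_ ?_ ?_ c
  · intro c d; simp only [Finsupp.add_apply]; ring
  · simp
  · intro p r
    unfold rb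
    split_ifs with h
    · simp only [Finsupp.add_apply, Finsupp.single_apply]
      split_ifs <;> first | (exfalso; lia) | (simp; try ring)
    · simp only [Finsupp.add_apply, Finsupp.single_apply]
      split_ifs <;> first | (exfalso; lia) | (simp; try ring)

end Crest.Agent.R72.KZ
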