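import Crest.Agent.R72.KZ0

/-!
# Row 72, S5, part 1 (helper10): the multiscale decomposition and the bounds of its coefficients
-/

set_option autoImplicit false

namespace Crest.Agent.R72.KZ

open Finset

/-- `k`-fold coarsening -/
noncomputable def gam (g : ℤ →₀ ℂ) : ℕ → ℤ →₀ ℂ
  | 0 => g
  | k + 1 => co (gam g k)

/-- the new first difference coefficients at level `k` -/
noncomputable def ee (g : ℤ →₀ ℂ) (J k : ℕ) : ℤ →₀ ℂ :=
  if k < J then eo (gam g k) else if k = J then Finsupp.single (-1) (gam g J (-1)) else 0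

/-- the old first difference coefficients at level `k` -/
noncomputable def zp (g : ℤ →₀ ℂ) (J : ℕ) : ℕ → ℤ →₀ ℂ
  | 0 => 0
  | k + 1 => P (ee g J k + zp g J k)

/-- all first difference coefficients at level `k` -/
noncomputable def zet (g : ℤ →₀ ℂ) (J k : ℕ) : ℤ →₀ ℂ := ee g J k + zp g J k

/-- the third difference coefficients at level `k` -/
noncomputable def rr (g : ℤ →₀ ℂ) (J k : ℕ) : ℤ →₀ ℂ := rh (zet g J k)

theorem zp_succ (g : ℤ →₀ ℂ) (J k : ℕ) : zp g J (k + 1) = P (zet g J k) := rfl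

theorem pr_zet (g : ℤ →₀ ℂ) (T : ℤ → ℂ) (J k : ℕ) :
    pr (zet g J k) (D T k) = pr (zp g J (k + 1)) (D T (k + 1)) + pr (rr g J k) (Hh T k) := by
  rw [pr_refine, zp_succ, rr]

theorem decomp_lt (g : ℤ →₀ ℂ) (T : ℤ → ℂ) (J k : ℕ) (hk : k ≤ J) :
    pr g T = (∑ j ∈ range k, pr (rr g J j) (Hh T j)) + pr (zp g J k) (D T k) + pr (gam g k) (X T k) := by
  induction k with
  | zero =>
    simp only [range_zero, sum_empty, zero_add, zp, pr_zero, gam]
    rfl
  | succ k ih =>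
    rw [ih (by lia), sum_range_succ, pr_coarse T k (gam g k)]
    have h1 : ee g J k = eo (gam g k) := by rw [ee, if_pos (by lia)]
    have h2 := pr_zet g T J k
    rw [zet, pr_add, h1] at h2
    rw [show gam g (k + 1) = co (gam g k) from rfl]
    linear_combination h2

/-- support and mean zero -/
structure Adm (g : ℤ →₀ ℂ) (J : ℕ) : Prop where
  supp : ∀ u : ℤ, (2 : ℤ) ^ J ≤ |u| → g u = 0
  mean : pr g (fun _ => 1) = 0

theorem gam_supp {g : ℤ →₀ ℂ} {J : ℕ} (h : Adm g J) {k : ℕ} (hk : k ≤ J) (n : ℤ)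
    (hn : (2 : ℤ) ^ (J - k) ≤ n ∨ n < -(2 : ℤ) ^ (J - k)) : gam g k n = 0 := by
  induction k generalizing n with
  | zero =>
    rw [Nat.sub_zero] at hn
    refine h.supp n ?_
    rcases hn with hn | hn
    · exact hn.trans (le_abs_self n)
    · have := neg_le_abs n
      lia
  | succ k ih =>
    have e : (2 : ℤ) ^ (J - k) = 2 * 2 ^ (J - (k + 1)) := by
      rw [show J - k = (J - (k + 1)) + 1 by lia, pow_succ]; ring
    rw [gam, co_apply, ih (by lia) (2 * n) (by lia), ih (by lia) (2 * n + 1) (by lia), add_zero]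

theorem gam_mean {g : ℤ →₀ ℂ} (h : pr g (fun _ => 1) = 0) (k : ℕ) : pr (gam g k) (fun _ => 1) = 0 := by
  induction k with
  | zero => exact h
  | succ k ih =>
    have : ∀ c : ℤ →₀ ℂ, pr (co c) (fun _ => 1) = pr c (fun _ => 1) := by
      intro c
      refine pr_ext_induction (f := fun c => pr (co c) (fun _ => 1)) (g := fun c => pr c (fun _ => 1))
        ?_ ?_ ?_ ?_ ?_ c
      · intro c d; simp only [map_add, pr_add]
      · intro c d; exact pr_add _ _ _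
      · simp only [map_zero, pr_zero]
      · exact pr_zero _
      · intro p r
        simp only [co, ext_single, pr_smul, pr_single]
        ring
    rw [gam, this, ih]

theorem gam_top {g : ℤ →₀ ℂ} {J : ℕ} (h : Adm g J) (T : ℤ → ℂ) :
    pr (gam g J) (X T J) = pr (Finsupp.single (-1) (gam g J (-1))) (D T J) := by
  have hs : ∀ n : ℤ, n ≠ 0 → n ≠ -1 → gam g J n = 0 := by
    intro n h0 h1
    refine gam_supp h le_rfl n ?_
    rw [Nat.sub_self, pow_zero]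
    lia
  have hg : gam g J = Finsupp.single 0 (gam g J 0) + Finsupp.single (-1) (gam g J (-1)) := by
    ext n
    rw [Finsupp.add_apply, Finsupp.single_apply, Finsupp.single_apply]
    by_cases h0 : n = 0
    · subst h0; simp
    · by_cases h1 : n = -1
      · subst h1; simp
      · rw [hs n h0 h1, if_neg (fun e => h0 e.symm), if_neg (fun e => h1 e.symm)]; simp
  have hm := gam_mean h.mean J
  rw [hg, pr_add, pr_single, pr_single, mul_one, mul_one] at hm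
  conv_lhs => rw [hg]
  rw [pr_add, pr_single, pr_single, pr_single, D]
  rw [show (-1 : ℤ) + 1 = 0 by ring]
  linear_combination X T J 0 * hm

/-- **the decomposition** -/
theorem decomp {g : ℤ →₀ ℂ} {J : ℕ} (h : Adm g J) (T : ℤ → ℂ) (K : ℕ) (hK : J + 1 ≤ K) :
    pr g T = (∑ j ∈ range K, pr (rr g J j) (Hh T j)) + pr (zp g J K) (D T K) := by
  induction K, hK using Nat.le_induction with
  | base =>
    rw [decomp_lt g T J J le_rfl, gam_top h, sum_range_succ]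
    have h2 := pr_zet g T J J
    have h1 : ee g J J = Finsupp.single (-1) (gam g J (-1)) := by
      rw [ee, if_neg (lt_irrefl _), if_pos rfl]
    rw [zet, pr_add, h1] at h2
    linear_combination h2
  | succ K hK ih =>
    rw [ih, sum_range_succ]
    have h2 := pr_zet g T J K
    have h1 : ee g J K = 0 := by
      rw [ee, if_neg (by lia), if_neg (by lia)]
    rw [zet, h1, zero_add] at h2
    linear_combination h2

/-! ### Bounds -/

/-- `g` is `Λ`-Lipschitz on the window `[a, b)` -/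
def Good (g : ℤ →₀ ℂ) (Λ : ℝ) (a b : ℤ) : Prop := ∀ u, a ≤ u → u + 1 < b → ‖g (u + 1) - g u‖ ≤ Λ

theorem Good.mono {g : ℤ →₀ ℂ} {Λ : ℝ} {a b a' b' : ℤ} (h : Good g Λ a b) (ha : a ≤ a') (hb : b' ≤ b) :
    Good g Λ a' b' := fun u h1 h2 => h u (ha.trans h1) (h2.trans_le hb)

theorem gam_le {g : ℤ →₀ ℂ} {G : ℝ} (hG : ∀ u, ‖g u‖ ≤ G) (k : ℕ) (n : ℤ) : ‖gam g k n‖ ≤ G * 2 ^ k := by
  induction k generalizing n with
  | zero => simpa [gam] using hG n
  | succ k ih =>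
    rw [gam, co_apply, pow_succ]
    refine (norm_add_le _ _).trans ?_
    linarith [ih (2 * n), ih (2 * n + 1)]

theorem gam_diff {g : ℤ →₀ ℂ} {Λ : ℝ} (k : ℕ) (n : ℤ)
    (h : Good g Λ (n * 2 ^ k) ((n + 2) * 2 ^ k)) : ‖gam g k (n + 1) - gam g k n‖ ≤ Λ * 4 ^ k := by
  induction k generalizing n with
  | zero =>
    rw [pow_zero, mul_one, mul_one] at h
    simpa [gam] using h n le_rfl (by lia)
  | succ k ih =>
    have hp : (0 : ℤ) < 2 ^ k := by positivity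
    have h1 := ih (2 * n) (h.mono (by rw [pow_succ]; nlinarith) (by rw [pow_succ]; nlinarith))
    have h2 := ih (2 * n + 1) (h.mono (by rw [pow_succ]; nlinarith) (by rw [pow_succ]; nlinarith))
    have h3 := ih (2 * n + 2) (h.mono (by rw [pow_succ]; nlinarith) (by rw [pow_succ]; nlinarith))
    have e : gam g (k + 1) (n + 1) - gam g (k + 1) n =
        (gam g k (2 * n + 1) - gam g k (2 * n)) + (gam g k (2 * n + 1 + 1) - gam g k (2 * n + 1)) +
        (gam g k (2 * n + 1 + 1) - gam g k (2 * n + 1)) +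
        (gam g k (2 * n + 2 + 1) - gam g k (2 * n + 2)) := by
      rw [gam, co_apply, co_apply]
      have e1 : 2 * (n + 1) = 2 * n + 2 := by ring
      have e2 : 2 * n + 1 + 1 = 2 * n + 2 := by ring
      rw [e1, e2]
      ring
    rw [e]
    refine norm_add₄_le.trans ?_
    rw [pow_succ]
    linarith

theorem P_le {c : ℤ →₀ ℂ} {B : ℝ} {m : ℤ} (h0 : ‖c (2 * m)‖ ≤ B) (h1 : ‖c (2 * m + 1)‖ ≤ B)
    (h2 : ‖c (2 * m + 2)‖ ≤ B) : ‖P c m‖ ≤ B := by
  rw [P_apply]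
  refine norm_add₃_le.trans ?_
  rw [norm_div, norm_div, norm_div]
  norm_num
  linarith

theorem rh_le {c : ℤ →₀ ℂ} {B : ℝ} {p : ℤ} (h : ∀ q, p - 1 ≤ q → q ≤ p + 3 → ‖c q‖ ≤ B) :
    ‖rh c p‖ ≤ 6 * B := by
  rcases Int.emod_two_eq_zero_or_one p with hp | hp
  · obtain ⟨n, rfl⟩ : ∃ n, p = 2 * n := ⟨p / 2, by lia⟩
    rw [rh_apply_even]
    refine (norm_sub_le _ _).trans ?_
    rw [norm_mul, norm_mul]
    have h1 := h (2 * n + 1) (by lia) (by lia)
    have h2 := norm_add_le (c (2 * n)) (c (2 * n + 2))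
    have h3 := h (2 * n) (by lia) (by lia)
    have h4 := h (2 * n + 2) (by lia) (by lia)
    have e1 : ‖(-3 : ℂ)‖ = 3 := by norm_num
    have e2 : ‖(3 / 2 : ℂ)‖ = 3 / 2 := by norm_num
    rw [e1, e2]
    linarith
  · obtain ⟨n, rfl⟩ : ∃ n, p = 2 * n + 1 := ⟨p / 2, by lia⟩
    rw [rh_apply_odd]
    refine (norm_sub_le _ _).trans ?_
    have h0 := norm_sub_le (-(c (2 * n + 1) + c (2 * n + 3)) / 2) ((c (2 * n + 4) + c (2 * n)) / 4)
    rw [norm_div, norm_div, norm_neg] at h0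
    rw [norm_mul]
    have h1 := h (2 * n + 1) (by lia) (by lia)
    have h2 := h (2 * n + 3) (by lia) (by lia)
    have h3 := h (2 * n + 4) (by lia) (by lia)
    have h4 := h (2 * n) (by lia) (by lia)
    have h5 := h (2 * n + 2) (by lia) (by lia)
    have h6 := norm_add_le (c (2 * n + 1)) (c (2 * n + 3))
    have h7 := norm_add_le (c (2 * n + 4)) (c (2 * n))
    have e1 : ‖(2 : ℂ)‖ = 2 := by norm_num
    have e2 : ‖(4 : ℂ)‖ = 4 := by norm_num
    have e3 : ‖(9 / 2 : ℂ)‖ = 9 / 2 := by norm_num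
    rw [e1, e2] at h0
    rw [e3]
    linarith

theorem ee_le {g : ℤ →₀ ℂ} {G : ℝ} (hG0 : 0 ≤ G) (hG : ∀ u, ‖g u‖ ≤ G) (J k : ℕ) (m : ℤ) :
    ‖ee g J k m‖ ≤ G * 2 ^ k := by
  have e2 : ‖(2 : ℂ)‖ = 2 := by norm_num
  have e8 : ‖(8 : ℂ)‖ = 8 := by norm_num
  rw [ee]
  split_ifs with h1 h2
  · rcases Int.emod_two_eq_zero_or_one m with hp | hp
    · obtain ⟨n, rfl⟩ : ∃ n, m = 2 * n := ⟨m / 2, by lia⟩
      rw [eo_apply_even, norm_div, e2]
      have h3 := norm_sub_le (gam g k (2 * n)) (gam g k (2 * n + 1))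
      have h4 := gam_le hG k (2 * n)
      have h5 := gam_le hG k (2 * n + 1)
      linarith
    · obtain ⟨n, rfl⟩ : ∃ n, m = 2 * n - 1 := ⟨(m + 1) / 2, by lia⟩
      rw [eo_apply_odd, norm_div, e8]
      have h3 := norm_sub_le (co (gam g k) (n - 1)) (co (gam g k) n)
      have h4 := gam_le hG (k + 1) (n - 1)
      have h5 := gam_le hG (k + 1) n
      rw [gam, pow_succ] at h4 h5
      have h6 : 0 ≤ G * 2 ^ k := by positivity
      linarith
  · rw [Finsupp.single_apply]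
    split_ifs
    · rw [h2]; exact gam_le hG J (-1)
    · rw [norm_zero]; positivity
  · rw [Finsupp.zero_apply, norm_zero]; positivity

theorem ee_good {g : ℤ →₀ ℂ} {Λ : ℝ} {J k : ℕ} (hk : k < J) {m : ℤ}
    (h : Good g Λ ((m - 1) * 2 ^ k) ((m + 3) * 2 ^ k)) : ‖ee g J k m‖ ≤ Λ * 4 ^ k / 2 := by
  have e2 : ‖(2 : ℂ)‖ = 2 := by norm_num
  have e8 : ‖(8 : ℂ)‖ = 8 := by norm_num
  have hp : (0 : ℤ) < 2 ^ k := by positivity
  rw [ee, if_pos hk]
  rcases Int.emod_two_eq_zero_or_one m with hp | hp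
  · obtain ⟨n, rfl⟩ : ∃ n, m = 2 * n := ⟨m / 2, by lia⟩
    rw [eo_apply_even, norm_div, e2, norm_sub_rev]
    have := gam_diff k (2 * n) (h.mono (by nlinarith) (by nlinarith))
    linarith
  · obtain ⟨n, rfl⟩ : ∃ n, m = 2 * n - 1 := ⟨(m + 1) / 2, by lia⟩
    rw [eo_apply_odd, norm_div, e8, norm_sub_rev]
    have := gam_diff (k + 1) (n - 1) (h.mono (by rw [pow_succ]; nlinarith) (by rw [pow_succ]; nlinarith))
    rw [sub_add_cancel, gam, pow_succ] at this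
    linarith

theorem zet_le {g : ℤ →₀ ℂ} {G : ℝ} (hG0 : 0 ≤ G) (hG : ∀ u, ‖g u‖ ≤ G) (J k : ℕ) (m : ℤ) :
    ‖zet g J k m‖ ≤ 2 * G * 2 ^ k := by
  induction k generalizing m with
  | zero =>
    rw [zet, zp, add_zero, pow_zero]
    have := ee_le hG0 hG J 0 m
    rw [pow_zero] at this
    linarith
  | succ k ih =>
    rw [zet, Finsupp.add_apply, zp_succ]
    refine (norm_add_le _ _).trans ?_
    have h1 := ee_le hG0 hG J (k + 1) m
    have h2 : ‖P (zet g J k) m‖ ≤ 2 * G * 2 ^ k := P_le (ih _) (ih _) (ih _)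
    rw [pow_succ] at h1 ⊢
    linarith

theorem zet_good {g : ℤ →₀ ℂ} {Λ : ℝ} (hΛ : 0 ≤ Λ) {J k : ℕ} (hk : k < J) {m : ℤ}
    (h : Good g Λ ((m - 1) * 2 ^ k) ((m + 3) * 2 ^ k)) : ‖zet g J k m‖ ≤ Λ * 4 ^ k := by
  induction k generalizing m with
  | zero =>
    rw [zet, zp, add_zero]
    have := ee_good hk h
    rw [pow_zero] at this ⊢
    linarith
  | succ k ih =>
    rw [zet, Finsupp.add_apply, zp_succ]
    refine (norm_add_le _ _).trans ?_
    have hp : (0 : ℤ) < 2 ^ k := by positivity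
    have h1 := ee_good hk h
    rw [pow_succ] at h
    have h2 : ‖P (zet g J k) m‖ ≤ Λ * 4 ^ k := by
      refine P_le (ih (by lia) (h.mono ?_ ?_)) (ih (by lia) (h.mono ?_ ?_))
        (ih (by lia) (h.mono ?_ ?_)) <;> nlinarith
    have h3 : 0 ≤ Λ * 4 ^ k := by positivity
    rw [pow_succ] at h1 ⊢
    linarith

theorem good_zero_of_supp {g : ℤ →₀ ℂ} {a b : ℤ} (h : ∀ u, a ≤ u → u < b → g u = 0) : Good g 0 a b := by
  intro u h1 h2
  rw [h u h1 (by lia), h (u + 1) (by lia) h2, sub_zero, norm_zero]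

theorem zet_supp_lt {g : ℤ →₀ ℂ} {J k : ℕ} (hA : Adm g J) (hk : k < J) {m : ℤ}
    (h : (2 : ℤ) ^ J ≤ (m - 1) * 2 ^ k ∨ (m + 3) * 2 ^ k ≤ -(2 : ℤ) ^ J) : zet g J k m = 0 := by
  have h1 : Good g 0 ((m - 1) * 2 ^ k) ((m + 3) * 2 ^ k) := by
    refine good_zero_of_supp fun u h1 h2 => hA.supp u ?_
    rcases h with h | h
    · exact (h.trans h1).trans (le_abs_self u)
    · have := neg_le_abs u
      lia
  have h2 := zet_good le_rfl hk h1
  rw [zero_mul] at h2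
  exact norm_le_zero_iff.1 h2

theorem zp_supp_top {g : ℤ →₀ ℂ} {J : ℕ} (hA : Adm g (J + 1)) {m : ℤ} (h : 2 ≤ m ∨ m ≤ -4) :
    zp g (J + 1) (J + 1) m = 0 := by
  have hp : (0 : ℤ) < 2 ^ J := by positivity
  have key : ∀ q, 2 * m ≤ q → q ≤ 2 * m + 2 → zet g (J + 1) J q = 0 := by
    intro q h1 h2
    refine zet_supp_lt hA (Nat.lt_succ_self J) ?_
    rw [pow_succ]
    rcases h with h | h
    · left; nlinarith
    · right; nlinarith
  rw [zp_succ, P_apply, key _ (by lia) (by lia), key _ (by lia) (by lia), key _ (by lia) (by lia)]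
  simp

theorem zet_supp_top {g : ℤ →₀ ℂ} {J : ℕ} (hA : Adm g (J + 1)) {m : ℤ} (h : 2 ≤ m ∨ m ≤ -4) :
    zet g (J + 1) (J + 1) m = 0 := by
  rw [zet, Finsupp.add_apply, zp_supp_top hA h, add_zero, ee, if_neg (lt_irrefl _), if_pos rfl,
    Finsupp.single_apply, if_neg (by lia)]

theorem zet_eq_zp {g : ℤ →₀ ℂ} {J k : ℕ} (hk : J < k) : zet g J k = zp g J k := by
  rw [zet, ee, if_neg (by lia), if_neg (by lia), zero_add]

theorem zp_supp_gt {g : ℤ →₀ ℂ} {J : ℕ} (hA : Adm g (J + 1)) {k : ℕ} (hk : J + 2 ≤ k) {m : ℤ}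
    (h : 1 ≤ m ∨ m ≤ -3) : zp g (J + 1) k m = 0 := by
  induction k, hk using Nat.le_induction generalizing m with
  | base =>
    have key : ∀ q, 2 * m ≤ q → q ≤ 2 * m + 2 → zet g (J + 1) (J + 1) q = 0 := fun q h1 h2 =>
      zet_supp_top hA (by lia)
    rw [zp_succ, P_apply, key _ (by lia) (by lia), key _ (by lia) (by lia), key _ (by lia) (by lia)]
    simp
  | succ k hk ih =>
    rw [zp_succ, zet_eq_zp (by lia), P_apply, ih (by lia), ih (by lia), ih (by lia)]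
    simp

/-- the `ℓ¹` norm of the tail -/
theorem tail_sum {g : ℤ →₀ ℂ} {G : ℝ} (hG0 : 0 ≤ G) (hG : ∀ u, ‖g u‖ ≤ G) {J : ℕ} (hA : Adm g (J + 1))
    (l : ℕ) : ‖zp g (J + 1) (J + 2 + l) (-2)‖ + ‖zp g (J + 1) (J + 2 + l) (-1)‖ +
      ‖zp g (J + 1) (J + 2 + l) 0‖ ≤ 6 * G * 2 ^ (J + 1) * (1 / 2) ^ l := by
  induction l with
  | zero =>
    have key : ∀ m, ‖zp g (J + 1) (J + 2) m‖ ≤ 2 * G * 2 ^ (J + 1) := fun m =>
      P_le (zet_le hG0 hG _ _ _) (zet_le hG0 hG _ _ _) (zet_le hG0 hG _ _ _)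
    have h1 := key (-2)
    have h2 := key (-1)
    have h3 := key 0
    rw [add_zero, pow_zero, mul_one]
    linarith
  | succ l ih =>
    have e2 : ‖(2 : ℂ)‖ = 2 := by norm_num
    have e4 : ‖(4 : ℂ)‖ = 4 := by norm_num
    have hs : ∀ m : ℤ, 1 ≤ m ∨ m ≤ -3 → zp g (J + 1) (J + 2 + l) m = 0 := fun m hm =>
      zp_supp_gt hA (by lia) hm
    have e : J + 2 + (l + 1) = (J + 2 + l) + 1 := by ring
    rw [e, zp_succ, zet_eq_zp (by lia), P_apply, P_apply, P_apply]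
    have a1 : (2 : ℤ) * -2 + 1 = -3 := by norm_num
    have a2 : (2 : ℤ) * -2 = -4 := by norm_num
    have a3 : (2 : ℤ) * -2 + 2 = -2 := by norm_num
    have b1 : (2 : ℤ) * -1 + 1 = -1 := by norm_num
    have b2 : (2 : ℤ) * -1 = -2 := by norm_num
    have b3 : (2 : ℤ) * -1 + 2 = 0 := by norm_num
    have c1 : (2 : ℤ) * 0 + 1 = 1 := by norm_num
    have c2 : (2 : ℤ) * 0 = 0 := by norm_num
    have c3 : (2 : ℤ) * 0 + 2 = 2 := by norm_num
    rw [a1, a3, a2, b1, b3, b2, c1, c3, c2, hs (-3) (by norm_num), hs (-4) (by norm_num),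
      hs 1 (by norm_num), hs 2 (by norm_num)]
    simp only [zero_div, zero_add, add_zero]
    have h1 := norm_add₃_le (a := zp g (J + 1) (J + 2 + l) (-1) / 2)
      (b := zp g (J + 1) (J + 2 + l) (-2) / 4) (c := zp g (J + 1) (J + 2 + l) 0 / 4)
    rw [norm_div, norm_div, norm_div, e2, e4] at h1
    rw [norm_div, norm_div, e4, pow_succ (1 / 2 : ℝ) l]
    linarith

theorem zp_tail_le {g : ℤ →₀ ℂ} {G : ℝ} (hG0 : 0 ≤ G) (hG : ∀ u, ‖g u‖ ≤ G) {J : ℕ}
    (hA : Adm g (J + 1)) (l : ℕ) (m : ℤ) :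
    ‖zp g (J + 1) (J + 2 + l) m‖ ≤ 6 * G * 2 ^ (J + 1) * (1 / 2) ^ l := by
  by_cases h : 1 ≤ m ∨ m ≤ -3
  · rw [zp_supp_gt hA (by lia) h, norm_zero]; positivity
  · have h1 := tail_sum hG0 hG hA l
    have n1 := norm_nonneg (zp g (J + 1) (J + 2 + l) (-2))
    have n2 := norm_nonneg (zp g (J + 1) (J + 2 + l) (-1))
    have n3 := norm_nonneg (zp g (J + 1) (J + 2 + l) 0)
    have : m = -2 ∨ m = -1 ∨ m = 0 := by lia
    rcases this with rfl | rfl | rfl <;> linarith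

/-! ### The coefficients `rr` -/

theorem rr_le {g : ℤ →₀ ℂ} {G : ℝ} (hG0 : 0 ≤ G) (hG : ∀ u, ‖g u‖ ≤ G) (J k : ℕ) (p : ℤ) :
    ‖rr g J k p‖ ≤ 12 * G * 2 ^ k := by
  have := rh_le (c := zet g J k) (p := p) (fun q _ _ => zet_le hG0 hG J k q)
  rw [rr]
  linarith

theorem rr_good {g : ℤ →₀ ℂ} {Λ : ℝ} (hΛ : 0 ≤ Λ) {J k : ℕ} (hk : k < J) {p : ℤ}
    (h : Good g Λ ((p - 2) * 2 ^ k) ((p + 6) * 2 ^ k)) : ‖rr g J k p‖ ≤ 6 * Λ * 4 ^ k := by
  have hp : (0 : ℤ) < 2 ^ k := by positivity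
  have := rh_le (c := zet g J k) (p := p) (fun q _ _ => zet_good hΛ hk (m := q)
    (h.mono (by nlinarith) (by nlinarith)))
  rw [rr]
  linarith

theorem rr_tail {g : ℤ →₀ ℂ} {G : ℝ} (hG0 : 0 ≤ G) (hG : ∀ u, ‖g u‖ ≤ G) {J : ℕ}
    (hA : Adm g (J + 1)) (l : ℕ) (p : ℤ) :
    ‖rr g (J + 1) (J + 2 + l) p‖ ≤ 36 * G * 2 ^ (J + 1) * (1 / 2) ^ l := by
  have := rh_le (c := zet g (J + 1) (J + 2 + l)) (p := p) (B := 6 * G * 2 ^ (J + 1) * (1 / 2) ^ l)
    (fun q _ _ => by rw [zet_eq_zp (by lia)]; exact zp_tail_le hG0 hG hA l q)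
  rw [rr]
  linarith

theorem rr_supp {g : ℤ →₀ ℂ} {J : ℕ} (hA : Adm g (J + 1)) (k : ℕ) {p : ℤ}
    (h : (2 : ℤ) ^ (J + 1 - k) + 6 ≤ |p|) : rr g (J + 1) k p = 0 := by
  have key : ∀ q, p - 1 ≤ q → q ≤ p + 3 → zet g (J + 1) k q = 0 := by
    intro q h1 h2
    rcases lt_trichotomy k (J + 1) with hk | hk | hk
    · have e : (2 : ℤ) ^ (J + 1) = 2 ^ (J + 1 - k) * 2 ^ k := by
        rw [← pow_add]; congr 1; lia
      have hp : (0 : ℤ) < 2 ^ k := by positivity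
      refine zet_supp_lt hA hk ?_
      rcases le_abs'.1 h with h | h
      · right; rw [e]; nlinarith
      · left; rw [e]; nlinarith
    · subst hk
      rw [Nat.sub_self, pow_zero] at h
      refine zet_supp_top hA ?_
      rcases le_abs'.1 h with h | h
      · right; lia
      · left; lia
    · have e : J + 1 - k = 0 := by lia
      rw [e, pow_zero] at h
      rw [zet_eq_zp hk]
      refine zp_supp_gt hA hk ?_
      rcases le_abs'.1 h with h | h
      · right; lia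
      · left; lia
  have := rh_le (c := zet g (J + 1) k) (p := p) (B := 0) (fun q h1 h2 => by
    rw [key q h1 h2, norm_zero])
  rw [mul_zero] at this
  exact norm_le_zero_iff.1 this

/-! ### The remainder -/

theorem X_le {T : ℤ → ℂ} {B : ℝ} (hT : ∀ v, ‖T v‖ ≤ B) (k : ℕ) (n : ℤ) : ‖X T k n‖ ≤ B := by
  induction k generalizing n with
  | zero => exact hT n
  | succ k ih =>
    rw [X, norm_div]
    have e8 : ‖(8 : ℂ)‖ = 8 := by norm_num
    have e3 : ‖(3 : ℂ)‖ = 3 := by norm_num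
    rw [e8]
    have h1 := norm_add₄_le (a := X T k (2 * n - 1)) (b := 3 * X T k (2 * n))
      (c := 3 * X T k (2 * n + 1)) (d := X T k (2 * n + 2))
    rw [norm_mul, norm_mul, e3] at h1
    have h2 := ih (2 * n - 1)
    have h3 := ih (2 * n)
    have h4 := ih (2 * n + 1)
    have h5 := ih (2 * n + 2)
    linarith

theorem D_le {T : ℤ → ℂ} {B : ℝ} (hT : ∀ v, ‖T v‖ ≤ B) (k : ℕ) (n : ℤ) : ‖D T k n‖ ≤ 2 * B := by
  rw [D]
  refine (norm_sub_le _ _).trans ?_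
  linarith [X_le hT k n, X_le hT k (n + 1)]

theorem pr_eq_sum {c : ℤ →₀ ℂ} {s : Finset ℤ} (hs : ∀ m, m ∉ s → c m = 0) (F : ℤ → ℂ) :
    pr c F = ∑ m ∈ s, c m * F m := by
  refine Finsupp.sum_of_support_subset _ ?_ _ (fun _ _ => zero_mul _)
  intro m hm
  by_contra h
  exact (Finsupp.mem_support_iff.1 hm) (hs m h)

theorem rem_le {g : ℤ →₀ ℂ} {G : ℝ} (hG0 : 0 ≤ G) (hG : ∀ u, ‖g u‖ ≤ G) {J : ℕ}
    (hA : Adm g (J + 1)) {T : ℤ → ℂ} {B : ℝ} (hT : ∀ v, ‖T v‖ ≤ B) (l : ℕ) :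
    ‖pr (zp g (J + 1) (J + 2 + l)) (D T (J + 2 + l))‖ ≤ 12 * B * G * 2 ^ (J + 1) * (1 / 2) ^ l := by
  have h1 : ∀ m, m ∉ ({-2, -1, 0} : Finset ℤ) → zp g (J + 1) (J + 2 + l) m = 0 := by
    intro m hm
    simp only [mem_insert, mem_singleton, not_or] at hm
    exact zp_supp_gt hA (by lia) (by lia)
  rw [pr_eq_sum h1, sum_insert (by decide), sum_insert (by decide), sum_singleton]
  have h2 := norm_add₃_le (a := zp g (J + 1) (J + 2 + l) (-2) * D T (J + 2 + l) (-2))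
    (b := zp g (J + 1) (J + 2 + l) (-1) * D T (J + 2 + l) (-1))
    (c := zp g (J + 1) (J + 2 + l) 0 * D T (J + 2 + l) 0)
  rw [norm_mul, norm_mul, norm_mul] at h2
  rw [← add_assoc]
  refine h2.trans ?_
  have h3 := tail_sum hG0 hG hA l
  have d1 := mul_le_mul_of_nonneg_left (D_le hT (J + 2 + l) (-2)) (norm_nonneg (zp g (J + 1) (J + 2 + l) (-2)))
  have d2 := mul_le_mul_of_nonneg_left (D_le hT (J + 2 + l) (-1)) (norm_nonneg (zp g (J + 1) (J + 2 + l) (-1)))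
  have d3 := mul_le_mul_of_nonneg_left (D_le hT (J + 2 + l) 0) (norm_nonneg (zp g (J + 1) (J + 2 + l) 0))
  have hB : 0 ≤ 2 * B := (norm_nonneg _).trans (D_le hT 0 0)
  have h4 := mul_le_mul_of_nonneg_right h3 hB
  linarith

end Crest.Agent.R72.KZ
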