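import Crest.Agent.R72.KZ1

/-!
# Row 72, S5, part 2 (helper10): the kernels `kap i` (smooth) and `rg M i` (rough), jumps
-/

set_option autoImplicit false

namespace Crest.Agent.R72.KZ

open Finset

/-- odd kernel with weights `w` on `1 ≤ r < R` -/
noncomputable def ker (w : ℕ → ℂ) (R : ℕ) : ℤ →₀ ℂ :=
  ∑ r ∈ Ico 1 R, (Finsupp.single (r : ℤ) (w r) - Finsupp.single (-(r : ℤ)) (w r))

theorem pr_ker (w : ℕ → ℂ) (R : ℕ) (T : ℤ → ℂ) :
    pr (ker w R) T = ∑ r ∈ Ico 1 R, w r * (T r - T (-r)) := by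
  rw [ker, pr_sum]
  refine sum_congr rfl fun r _ => ?_
  rw [pr_sub, pr_single, pr_single]
  ring

theorem ker_apply {w : ℕ → ℂ} {R : ℕ} (h0 : w 0 = 0) (hR : ∀ r, R ≤ r → w r = 0) (u : ℤ) :
    ker w R u = if 0 ≤ u then w u.natAbs else - w u.natAbs := by
  rw [ker, Finsupp.finsetSum_apply]
  simp only [Finsupp.sub_apply, Finsupp.single_apply]
  by_cases h : 1 ≤ u.natAbs ∧ u.natAbs < R
  · rw [sum_eq_single u.natAbs]
    · split_ifs <;> first | (exfalso; lia) | simp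
    · intro r hr hne
      rw [mem_Ico] at hr
      rw [if_neg (by lia), if_neg (by lia), sub_zero]
    · intro h'
      exact absurd (mem_Ico.2 h) h'
  · rw [sum_eq_zero]
    · have : w u.natAbs = 0 := by
        rcases Nat.lt_or_ge u.natAbs 1 with h1 | h1
        · rw [Nat.lt_one_iff.1 h1, h0]
        · exact hR _ (by lia)
      rw [this]; simp
    · intro r hr
      rw [mem_Ico] at hr
      rw [if_neg (by lia), if_neg (by lia), sub_zero]

/-- the radial index of the edge `(u, u+1)` -/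
def sidx (u : ℤ) : ℕ := if 0 ≤ u then u.natAbs else u.natAbs - 1

theorem ker_diff {w : ℕ → ℂ} {R : ℕ} (h0 : w 0 = 0) (hR : ∀ r, R ≤ r → w r = 0) (u : ℤ) :
    ‖ker w R (u + 1) - ker w R u‖ = ‖w (sidx u + 1) - w (sidx u)‖ := by
  rw [ker_apply h0 hR, ker_apply h0 hR, sidx]
  rcases lt_trichotomy u (-1) with h | h | h
  · rw [if_neg (by lia), if_neg (by lia), if_neg (by lia)]
    have e1 : (u + 1).natAbs = u.natAbs - 1 := by lia
    have e2 : u.natAbs - 1 + 1 = u.natAbs := by lia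
    rw [e1, e2]
    congr 1
    ring
  · subst h
    norm_num [h0]
  · rw [if_pos (by lia), if_pos (by lia), if_pos (by lia)]
    have e1 : (u + 1).natAbs = u.natAbs + 1 := by lia
    rw [e1]

theorem ker_norm {w : ℕ → ℂ} {R : ℕ} (h0 : w 0 = 0) (hR : ∀ r, R ≤ r → w r = 0) (u : ℤ) :
    ‖ker w R u‖ = ‖w u.natAbs‖ := by
  rw [ker_apply h0 hR]
  split_ifs
  · rfl
  · rw [norm_neg]

theorem ker_adm {w : ℕ → ℂ} {J : ℕ} (h0 : w 0 = 0) (hR : ∀ r, 2 ^ J ≤ r → w r = 0) :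
    Adm (ker w (2 ^ J)) J := by
  refine ⟨fun u hu => ?_, ?_⟩
  · rw [ker_apply h0 hR, hR]
    · simp
    · have : ((2 : ℕ) ^ J : ℤ) ≤ (u.natAbs : ℤ) := by
        rw [Int.natCast_natAbs]; exact_mod_cast hu
      exact_mod_cast this
  · rw [pr_ker]
    simp

/-! ### the smooth cutoffs -/

noncomputable def psi (i r : ℕ) : ℝ := min 1 (max 0 (2 - (r : ℝ) / 2 ^ i))

noncomputable def chi : ℕ → ℕ → ℝ
  | 0, r => psi 0 r
  | i + 1, r => psi (i + 1) r - psi i r

theorem psi_eq_one {i r : ℕ} (h : r ≤ 2 ^ i) : psi i r = 1 := by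
  have h1 : (r : ℝ) / 2 ^ i ≤ 1 := by
    rw [div_le_one (by positivity)]; exact_mod_cast h
  rw [psi, max_eq_right (by linarith), min_eq_left (by linarith)]

theorem psi_eq_zero {i r : ℕ} (h : 2 ^ (i + 1) ≤ r) : psi i r = 0 := by
  have h1 : (2 : ℝ) ≤ (r : ℝ) / 2 ^ i := by
    rw [le_div_iff₀ (by positivity)]
    have : ((2 ^ (i + 1) : ℕ) : ℝ) ≤ r := by exact_mod_cast h
    rw [pow_succ] at this
    push_cast at this
    linarith
  rw [psi, max_eq_left (by linarith), min_eq_right (by norm_num)]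

theorem psi_nonneg (i r : ℕ) : 0 ≤ psi i r := le_min zero_le_one (le_max_left _ _)

theorem psi_le_one (i r : ℕ) : psi i r ≤ 1 := min_le_left _ _

theorem psi_mono (i r : ℕ) : psi i r ≤ psi (i + 1) r := by
  refine min_le_min le_rfl (max_le_max le_rfl ?_)
  have : (r : ℝ) / 2 ^ (i + 1) ≤ (r : ℝ) / 2 ^ i := by
    apply div_le_div_of_nonneg_left (by positivity) (by positivity)
    rw [pow_succ]
    have : (0 : ℝ) < 2 ^ i := by positivity
    linarith
  linarith

theorem psi_lip (i r : ℕ) : |psi i (r + 1) - psi i r| ≤ (1 / 2) ^ i := by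
  have h1 : |psi i (r + 1) - psi i r| ≤ |(2 - ((r + 1 : ℕ) : ℝ) / 2 ^ i) - (2 - (r : ℝ) / 2 ^ i)| := by
    rw [psi, psi, min_comm 1, min_comm 1, max_comm 0, max_comm 0]
    refine (abs_min_sub_min_le_max _ _ _ _).trans ?_
    rw [sub_self, abs_zero, max_eq_left (abs_nonneg _)]
    refine (abs_max_sub_max_le_max _ _ _ _).trans ?_
    rw [sub_self, abs_zero, max_eq_left (abs_nonneg _)]
  refine h1.trans (le_of_eq ?_)
  have : (2 - ((r + 1 : ℕ) : ℝ) / 2 ^ i) - (2 - (r : ℝ) / 2 ^ i) = - (1 / 2) ^ i := by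
    rw [one_div, inv_pow]
    push_cast
    field_simp
    ring
  rw [this, abs_neg, abs_of_nonneg (by positivity)]

theorem chi_nonneg (i r : ℕ) : 0 ≤ chi i r := by
  cases i with
  | zero => exact psi_nonneg 0 r
  | succ i => rw [chi]; linarith [psi_mono i r]

theorem chi_le_one (i r : ℕ) : chi i r ≤ 1 := by
  cases i with
  | zero => exact psi_le_one 0 r
  | succ i => rw [chi]; linarith [psi_le_one (i + 1) r, psi_nonneg i r]

theorem chi_eq_zero_of_ge {i r : ℕ} (h : 2 ^ (i + 1) ≤ r) : chi i r = 0 := by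
  cases i with
  | zero => exact psi_eq_zero h
  | succ i =>
    rw [chi, psi_eq_zero h, psi_eq_zero ((Nat.pow_le_pow_right two_pos (by lia)).trans h), sub_zero]

theorem chi_eq_zero_of_le {i r : ℕ} (h1 : 1 ≤ r) (h : 2 * r ≤ 2 ^ i) : chi i r = 0 := by
  cases i with
  | zero => rw [pow_zero] at h; lia
  | succ i =>
    rw [pow_succ] at h
    rw [chi, psi_eq_one (show r ≤ 2 ^ i by lia), psi_eq_one (by rw [pow_succ]; lia), sub_self]

theorem chi_lip (i r : ℕ) : |chi i (r + 1) - chi i r| ≤ 3 * (1 / 2) ^ i := by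
  cases i with
  | zero =>
    have := psi_lip 0 r
    rw [pow_zero] at this ⊢
    rw [chi, chi]
    linarith
  | succ i =>
    have h1 := psi_lip i r
    have h2 := psi_lip (i + 1) r
    rw [chi, chi]
    have e : psi (i + 1) (r + 1) - psi i (r + 1) - (psi (i + 1) r - psi i r) =
      (psi (i + 1) (r + 1) - psi (i + 1) r) - (psi i (r + 1) - psi i r) := by ring
    rw [e]
    refine (abs_sub _ _).trans ?_
    rw [pow_succ] at h2 ⊢
    linarith

theorem sum_chi (I r : ℕ) : ∑ i ∈ range (I + 1), chi i r = psi I r := by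
  induction I with
  | zero => rw [zero_add, sum_range_one]; rfl
  | succ I ih => rw [sum_range_succ, ih, chi]; ring

/-- the weight `χ_i(r)/r` -/
noncomputable def wt (i r : ℕ) : ℝ := chi i r / r

theorem wt_zero (i : ℕ) : wt i 0 = 0 := by simp [wt]

theorem wt_eq_zero_of_ge {i r : ℕ} (h : 2 ^ (i + 1) ≤ r) : wt i r = 0 := by
  rw [wt, chi_eq_zero_of_ge h, zero_div]

theorem wt_eq_zero_of_le {i r : ℕ} (h : 2 * r ≤ 2 ^ i) : wt i r = 0 := by
  rcases Nat.eq_zero_or_pos r with rfl | h1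
  · exact wt_zero i
  · rw [wt, chi_eq_zero_of_le h1 h, zero_div]

theorem wt_nonneg (i r : ℕ) : 0 ≤ wt i r := div_nonneg (chi_nonneg i r) (Nat.cast_nonneg r)

theorem inv_le_of {i r : ℕ} (h1 : 1 ≤ r) (h : 2 ^ i ≤ 2 * r) : (r : ℝ)⁻¹ ≤ 2 * (1 / 2) ^ i := by
  have h0 : (0 : ℝ) < r := by exact_mod_cast h1
  have h2 : ((2 : ℝ)) ^ i ≤ 2 * r := by exact_mod_cast h
  rw [one_div, inv_pow, inv_le_comm₀ h0 (by positivity), mul_inv, inv_inv]
  linarith

theorem wt_le (i r : ℕ) : wt i r ≤ 2 * (1 / 2) ^ i := by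
  rcases Nat.lt_or_ge (2 ^ i) (2 * r) with h | h
  · rw [wt, div_eq_mul_inv]
    have h1 : 1 ≤ r := by
      rcases Nat.eq_zero_or_pos r with rfl | h1
      · simp at h
      · exact h1
    have h2 := inv_le_of h1 h.le
    have h3 := chi_le_one i r
    have h4 := chi_nonneg i r
    have h5 : (0 : ℝ) ≤ (r : ℝ)⁻¹ := by positivity
    nlinarith
  · rw [wt_eq_zero_of_le h]; positivity

theorem wt_lip (i r : ℕ) : |wt i (r + 1) - wt i r| ≤ 10 * (1 / 4) ^ i := by
  have h4 : ((1 : ℝ) / 4) ^ i = (1 / 2) ^ i * (1 / 2) ^ i := by rw [← mul_pow]; norm_num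
  have hq : (0 : ℝ) < (1 / 2) ^ i := by positivity
  rcases Nat.lt_or_ge (2 ^ i) (2 * (r + 1)) with h | h
  · rcases Nat.eq_zero_or_pos r with rfl | hr
    · -- then `i = 0`
      have hi : i = 0 := by
        by_contra hne
        have : 2 ≤ 2 ^ i := by
          calc 2 = 2 ^ 1 := (pow_one 2).symm
            _ ≤ 2 ^ i := Nat.pow_le_pow_right two_pos (by lia)
        lia
      subst hi
      rw [wt_zero, sub_zero, pow_zero, abs_of_nonneg (wt_nonneg _ _)]
      have := wt_le 0 (0 + 1)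
      rw [pow_zero] at this
      linarith
    · have h' : 2 ^ i ≤ 2 * r := by
        rcases Nat.eq_zero_or_pos i with rfl | hi
        · rw [pow_zero]; lia
        · obtain ⟨j, rfl⟩ : ∃ j, i = j + 1 := ⟨i - 1, by lia⟩
          rw [pow_succ] at h ⊢
          lia
      have i1 := inv_le_of hr h'
      have i2 := inv_le_of (show 1 ≤ r + 1 by lia) h.le
      have c1 := chi_lip i r
      have c2 := chi_nonneg i r
      have c3 := chi_le_one i r
      have hr0 : (0 : ℝ) < r := by exact_mod_cast hr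
      have e : wt i (r + 1) - wt i r = (chi i (r + 1) - chi i r) * ((r + 1 : ℕ) : ℝ)⁻¹ -
          chi i r * ((r : ℝ)⁻¹ * ((r + 1 : ℕ) : ℝ)⁻¹) := by
        rw [wt, wt]
        push_cast
        field_simp
        ring
      rw [e]
      refine (abs_sub _ _).trans ?_
      rw [abs_mul, abs_mul, abs_of_nonneg c2, abs_of_nonneg (show (0 : ℝ) ≤ ((r + 1 : ℕ) : ℝ)⁻¹ by positivity),
        abs_of_nonneg (show (0 : ℝ) ≤ (r : ℝ)⁻¹ * ((r + 1 : ℕ) : ℝ)⁻¹ by positivity)]
      have a1 : |chi i (r + 1) - chi i r| * ((r + 1 : ℕ) : ℝ)⁻¹ ≤ (3 * (1 / 2) ^ i) * (2 * (1 / 2) ^ i) :=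
        mul_le_mul c1 i2 (by positivity) (by positivity)
      have a2 : (r : ℝ)⁻¹ * ((r + 1 : ℕ) : ℝ)⁻¹ ≤ (2 * (1 / 2) ^ i) * (2 * (1 / 2) ^ i) :=
        mul_le_mul i1 i2 (by positivity) (by positivity)
      have a3 : chi i r * ((r : ℝ)⁻¹ * ((r + 1 : ℕ) : ℝ)⁻¹) ≤ 1 * ((2 * (1 / 2) ^ i) * (2 * (1 / 2) ^ i)) :=
        mul_le_mul c3 a2 (by positivity) zero_le_one
      rw [h4]
      linarith
  · rw [wt_eq_zero_of_le h, wt_eq_zero_of_le (show 2 * r ≤ 2 ^ i by lia), sub_zero, abs_zero]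
    positivity

/-! ### The two families of kernels -/

/-- smooth kernels -/
noncomputable def kap (i : ℕ) : ℤ →₀ ℂ := ker (fun r => (wt i r : ℂ)) (2 ^ (i + 1))

/-- rough weights -/
noncomputable def rw' (M : ℕ → ℂ) (i r : ℕ) : ℂ := (M r - M (2 ^ i)) * (wt i r : ℂ)

/-- rough kernels -/
noncomputable def rg (M : ℕ → ℂ) (i : ℕ) : ℤ →₀ ℂ := ker (rw' M i) (2 ^ (i + 1))

/-- the jumps seen by the shell `i` -/
noncomputable def Jset (M : ℕ → ℂ) (i : ℕ) : Finset ℕ := by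
  classical
  exact (range (2 ^ (i + 1))).filter fun s => 2 ^ i ≤ 2 * s ∧ M (s + 1) ≠ M s

theorem mem_Jset {M : ℕ → ℂ} {i s : ℕ} :
    s ∈ Jset M i ↔ s < 2 ^ (i + 1) ∧ 2 ^ i ≤ 2 * s ∧ M (s + 1) ≠ M s := by
  classical
  rw [Jset, mem_filter, mem_range]

theorem kw0 (i : ℕ) : ((wt i 0 : ℝ) : ℂ) = 0 := by rw [wt_zero]; simp

theorem kwR (i r : ℕ) (h : 2 ^ (i + 1) ≤ r) : ((wt i r : ℝ) : ℂ) = 0 := by
  rw [wt_eq_zero_of_ge h]; simp

theorem rw0 (M : ℕ → ℂ) (i : ℕ) : rw' M i 0 = 0 := by rw [rw', kw0, mul_zero]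

theorem rwR (M : ℕ → ℂ) (i r : ℕ) (h : 2 ^ (i + 1) ≤ r) : rw' M i r = 0 := by
  rw [rw', kwR i r h, mul_zero]

theorem kap_adm (i : ℕ) : Adm (kap i) (i + 1) := ker_adm (kw0 i) (kwR i)

theorem rg_adm (M : ℕ → ℂ) (i : ℕ) : Adm (rg M i) (i + 1) := ker_adm (rw0 M i) (rwR M i)

theorem kap_le (i : ℕ) (u : ℤ) : ‖kap i u‖ ≤ 2 * (1 / 2) ^ i := by
  rw [kap, ker_norm (kw0 i) (kwR i), Complex.norm_real, Real.norm_of_nonneg (wt_nonneg _ _)]
  exact wt_le _ _

theorem kap_good (i : ℕ) (a b : ℤ) : Good (kap i) (10 * (1 / 4) ^ i) a b := by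
  intro u _ _
  rw [kap, ker_diff (kw0 i) (kwR i), ← Complex.ofReal_sub, Complex.norm_real]
  exact wt_lip _ _

theorem rg_le {M : ℕ → ℂ} (hM : ∀ r, ‖M r‖ ≤ 1) (i : ℕ) (u : ℤ) : ‖rg M i u‖ ≤ 4 * (1 / 2) ^ i := by
  rw [rg, ker_norm (rw0 M i) (rwR M i), rw', norm_mul, Complex.norm_real,
    Real.norm_of_nonneg (wt_nonneg _ _)]
  have h1 := wt_le i u.natAbs
  have h2 := wt_nonneg i u.natAbs
  have h3 : ‖M u.natAbs - M (2 ^ i)‖ ≤ 2 := by
    refine (norm_sub_le _ _).trans ?_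
    linarith [hM u.natAbs, hM (2 ^ i)]
  have h4 := norm_nonneg (M u.natAbs - M (2 ^ i))
  nlinarith

theorem rg_good {M : ℕ → ℂ} (hM : ∀ r, ‖M r‖ ≤ 1) (i : ℕ) (a b : ℤ)
    (h : ∀ u, a ≤ u → u + 1 < b → sidx u ∉ Jset M i) : Good (rg M i) (20 * (1 / 4) ^ i) a b := by
  intro u h1 h2
  have h3 := h u h1 h2
  rw [rg, ker_diff (rw0 M i) (rwR M i)]
  generalize sidx u = s at h3
  rw [mem_Jset] at h3
  by_cases c1 : s < 2 ^ (i + 1)
  · by_cases c2 : 2 ^ i ≤ 2 * s
    · have c3 : M (s + 1) = M s := by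
        by_contra c3
        exact h3 ⟨c1, c2, c3⟩
      have e : rw' M i (s + 1) - rw' M i s = (M s - M (2 ^ i)) * ((wt i (s + 1) - wt i s : ℝ) : ℂ) := by
        rw [rw', rw', c3]; push_cast; ring
      rw [e, norm_mul, Complex.norm_real, Real.norm_eq_abs]
      have h4 : ‖M s - M (2 ^ i)‖ ≤ 2 := by
        refine (norm_sub_le _ _).trans ?_
        linarith [hM s, hM (2 ^ i)]
      have h5 := wt_lip i s
      have h6 := norm_nonneg (M s - M (2 ^ i))
      have h7 := abs_nonneg (wt i (s + 1) - wt i s)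
      nlinarith
    · -- `2 s < 2^i`
      push Not at c2
      rcases Nat.eq_zero_or_pos i with rfl | hi
      · -- `s = 0`, `M (2^0) = M 1`
        have hs : s = 0 := by rw [pow_zero] at c2; lia
        subst hs
        rw [rw', rw', pow_zero, wt_zero]
        simp
      · have h8 : 2 * (s + 1) ≤ 2 ^ i := by
          obtain ⟨j, rfl⟩ : ∃ j, i = j + 1 := ⟨i - 1, by lia⟩
          rw [pow_succ] at c2 ⊢
          lia
        rw [rw', rw', wt_eq_zero_of_le h8, wt_eq_zero_of_le c2.le]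
        simp
  · push Not at c1
    rw [rwR M i s c1, rwR M i (s + 1) (by lia), sub_zero, norm_zero]
    positivity

/-- no jumps: the rough kernel vanishes -/
theorem rg_zero {M : ℕ → ℂ} {i : ℕ} (h : Jset M i = ∅) : rg M i = 0 := by
  have key : ∀ s, M (s + 1) = M s ∨ ¬ (s < 2 ^ (i + 1) ∧ 2 ^ i ≤ 2 * s) := by
    intro s
    by_contra hc
    push Not at hc
    have : s ∈ Jset M i := mem_Jset.2 ⟨hc.2.1, hc.2.2, hc.1⟩
    rw [h] at this
    simp at this
  -- `M r = M (2^i)` on `2^i ≤ 2 r`, `r ≤ 2^(i+1)`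
  have up : ∀ r, 2 ^ i ≤ r → r ≤ 2 ^ (i + 1) → M r = M (2 ^ i) := by
    intro r h1
    induction r, h1 using Nat.le_induction with
    | base => intro _; rfl
    | succ r hr ih =>
      intro h2
      rcases key r with h3 | h3
      · rw [h3, ih (by lia)]
      · exfalso; apply h3; constructor <;> lia
  have down : ∀ d r, r + d = 2 ^ i → 2 ^ i ≤ 2 * r → M r = M (2 ^ i) := by
    intro d
    induction d with
    | zero => intro r h1 _; rw [← h1]; rfl
    | succ d ih =>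
      intro r h1 h2
      have h3 := ih (r + 1) (by lia) (by lia)
      rcases key r with h4 | h4
      · rw [← h4, h3]
      · exfalso; apply h4
        have : 2 ^ i ≤ 2 ^ (i + 1) := Nat.pow_le_pow_right two_pos (by lia)
        have hp : 0 < 2 ^ i := by positivity
        constructor <;> lia
  have hz : ∀ r, rw' M i r = 0 := by
    intro r
    by_cases h1 : 2 * r ≤ 2 ^ i
    · rw [rw', wt_eq_zero_of_le h1]; simp
    · by_cases h2 : 2 ^ (i + 1) ≤ r
      · exact rwR M i r h2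
      · have : M r = M (2 ^ i) := by
          rcases Nat.lt_or_ge r (2 ^ i) with h3 | h3
          · exact down (2 ^ i - r) r (by lia) (by lia)
          · exact up r h3 (by lia)
        rw [rw', this, sub_self, zero_mul]
  rw [rg, ker]
  refine sum_eq_zero fun r _ => ?_
  rw [hz]; simp

end Crest.Agent.R72.KZ
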