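import Crest.Agent.R72.KZ2

/-!
# Row 72, S5, part 3 (helper10): the coefficients `cK` (universal), `dK M` and the main decomposition
-/

set_option autoImplicit false

namespace Crest.Agent.R72.KZ

open Finset

/-- universal coefficients (smooth part) -/
noncomputable def cK (i k : ℕ) (p : ℤ) : ℂ := rr (kap i) (i + 1) k p

/-- rough coefficients -/
noncomputable def dK (M : ℕ → ℂ) (i k : ℕ) (p : ℤ) : ℂ := rr (rg M i) (i + 1) k p

/-- range of the index `p` -/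
def rad (i k : ℕ) : ℕ := 8 * 2 ^ (i - k)

/-- the index set of `p` -/
noncomputable def PI (i k : ℕ) : Finset ℤ := Icc (-(rad i k : ℤ)) (rad i k)

theorem rr_supp' {g : ℤ →₀ ℂ} {i : ℕ} (hA : Adm g (i + 1)) (k : ℕ) {p : ℤ} (h : p ∉ PI i k) :
    rr g (i + 1) k p = 0 := by
  refine rr_supp hA k ?_
  rw [PI, mem_Icc, ← abs_le, not_le] at h
  refine le_trans ?_ h.le
  rw [rad]
  push_cast
  rcases Nat.lt_or_ge i k with hk | hk
  · rw [show i + 1 - k = 0 by lia, show i - k = 0 by lia]; norm_num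
  · rw [show i + 1 - k = (i - k) + 1 by lia, pow_succ]
    have : (1 : ℤ) ≤ 2 ^ (i - k) := one_le_pow₀ (by norm_num)
    linarith

theorem cK_supp {i k : ℕ} {p : ℤ} (h : p ∉ PI i k) : cK i k p = 0 := rr_supp' (kap_adm i) k h

theorem dK_supp {M : ℕ → ℂ} {i k : ℕ} {p : ℤ} (h : p ∉ PI i k) : dK M i k p = 0 :=
  rr_supp' (rg_adm M i) k h

theorem pow_aux {i k : ℕ} (hk : k ≤ i) : ((1 : ℝ) / 4) ^ i * 4 ^ k = (1 / 4) ^ (i - k) := by
  obtain ⟨j, rfl⟩ := Nat.exists_eq_add_of_le hk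
  rw [Nat.add_sub_cancel_left, pow_add, mul_comm ((1 / 4 : ℝ) ^ k), mul_assoc, ← mul_pow]
  norm_num

theorem pow_aux2 {i k : ℕ} (hk : k ≤ i) : ((1 : ℝ) / 2) ^ i * 2 ^ k = (1 / 2) ^ (i - k) := by
  obtain ⟨j, rfl⟩ := Nat.exists_eq_add_of_le hk
  rw [Nat.add_sub_cancel_left, pow_add, mul_comm ((1 / 2 : ℝ) ^ k), mul_assoc, ← mul_pow]
  norm_num

theorem cK_le {i k : ℕ} (hk : k ≤ i) (p : ℤ) : ‖cK i k p‖ ≤ 60 * (1 / 4) ^ (i - k) := by
  have h := rr_good (by positivity) (Nat.lt_succ_of_le hk)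
    (kap_good i ((p - 2) * 2 ^ k) ((p + 6) * 2 ^ k))
  rw [cK]
  refine h.trans (le_of_eq ?_)
  rw [← pow_aux hk]
  ring

/-- coefficients above the scale of the kernel -/
theorem rr_high {g : ℤ →₀ ℂ} {i k : ℕ} (hA : Adm g (i + 1)) (hg : ∀ u, ‖g u‖ ≤ 4 * (1 / 2) ^ i)
    (hk : i < k) (p : ℤ) : ‖rr g (i + 1) k p‖ ≤ 1152 * (1 / 2) ^ (k - i) := by
  have e : ((1 : ℝ) / 2) ^ i * 2 ^ i = 1 := by rw [← mul_pow]; norm_num
  rcases Nat.lt_or_ge (i + 1) k with h | h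
  · obtain ⟨l, rfl⟩ := Nat.exists_eq_add_of_le (show i + 2 ≤ k by lia)
    have h1 := rr_tail (by positivity) hg hA l p
    refine h1.trans (le_of_eq ?_)
    rw [show i + 2 + l - i = l + 2 by lia, pow_succ (2 : ℝ) i, pow_add]
    linear_combination (288 * (1 / 2 : ℝ) ^ l) * e
  · have hk' : k = i + 1 := by lia
    subst hk'
    have h1 := rr_le (by positivity) hg (i + 1) (i + 1) p
    refine h1.trans ?_
    rw [show i + 1 - i = 1 by lia, pow_succ (2 : ℝ) i, pow_one]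
    have : (12 : ℝ) * (4 * (1 / 2) ^ i) * (2 ^ i * 2) = 96 := by linear_combination 96 * e
    rw [this]
    norm_num

theorem cK_high {i k : ℕ} (hk : i < k) (p : ℤ) : ‖cK i k p‖ ≤ 1152 * (1 / 2) ^ (k - i) :=
  rr_high (kap_adm i) (fun u => (kap_le i u).trans (by
    have : (0 : ℝ) ≤ (1 / 2) ^ i := by positivity
    linarith)) hk p

/-! ### The rough coefficients -/

/-- the windows hit by an integer point -/
theorem window_hit (u : ℤ) (k : ℕ) :
    ((Icc (u / 2 ^ k - 5) (u / 2 ^ k + 2)).card : ℝ) = 8 := by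
  rw [Int.card_Icc]
  have : (u / 2 ^ k + 2 + 1 - (u / 2 ^ k - 5)).toNat = 8 := by
    rw [show u / 2 ^ k + 2 + 1 - (u / 2 ^ k - 5) = 8 by ring]; rfl
  rw [this]
  norm_num

theorem mem_window {u p : ℤ} {k : ℕ} (h1 : (p - 2) * 2 ^ k ≤ u) (h2 : u < (p + 6) * 2 ^ k) :
    p ∈ Icc (u / 2 ^ k - 5) (u / 2 ^ k + 2) := by
  have hp : (0 : ℤ) < 2 ^ k := by positivity
  have h3 : p - 2 ≤ u / 2 ^ k := (Int.le_ediv_iff_mul_le hp).2 h1
  have h4 : u / 2 ^ k < p + 6 := (Int.ediv_lt_iff_lt_mul hp).2 h2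
  rw [mem_Icc]
  constructor <;> lia

/-- the bad windows -/
noncomputable def bad (M : ℕ → ℂ) (i k : ℕ) : Finset ℤ :=
  (Jset M i).biUnion fun s => Icc ((s : ℤ) / 2 ^ k - 5) ((s : ℤ) / 2 ^ k + 2) ∪
    Icc ((-(s : ℤ) - 1) / 2 ^ k - 5) ((-(s : ℤ) - 1) / 2 ^ k + 2)

theorem bad_card (M : ℕ → ℂ) (i k : ℕ) : ((bad M i k).card : ℝ) ≤ 16 * (Jset M i).card := by
  have h : (bad M i k).card ≤ (Jset M i).card * 16 := by
    refine card_biUnion_le_card_mul _ _ _ fun s _ => ?_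
    refine (card_union_le _ _).trans ?_
    have h1 := window_hit (s : ℤ) k
    have h2 := window_hit (-(s : ℤ) - 1) k
    have h1' : (Icc ((s : ℤ) / 2 ^ k - 5) ((s : ℤ) / 2 ^ k + 2)).card = 8 := by exact_mod_cast h1
    have h2' : (Icc ((-(s : ℤ) - 1) / 2 ^ k - 5) ((-(s : ℤ) - 1) / 2 ^ k + 2)).card = 8 := by
      exact_mod_cast h2
    rw [h1', h2']
  have : ((bad M i k).card : ℝ) ≤ (((Jset M i).card * 16 : ℕ) : ℝ) := by exact_mod_cast h
  push_cast at this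
  linarith

theorem good_of_not_bad {M : ℕ → ℂ} (hM : ∀ r, ‖M r‖ ≤ 1) {i k : ℕ} {p : ℤ} (hp : p ∉ bad M i k) :
    Good (rg M i) (20 * (1 / 4) ^ i) ((p - 2) * 2 ^ k) ((p + 6) * 2 ^ k) := by
  refine rg_good hM i _ _ fun u h1 h2 hs => hp ?_
  rw [bad, mem_biUnion]
  refine ⟨sidx u, hs, ?_⟩
  rw [mem_union]
  have h3 := mem_window h1 (show u < (p + 6) * 2 ^ k by lia)
  rcases le_or_gt 0 u with hu | hu
  · left
    have : ((sidx u : ℕ) : ℤ) = u := by rw [sidx, if_pos hu]; lia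
    rw [this]; exact h3
  · right
    have : -((sidx u : ℕ) : ℤ) - 1 = u := by rw [sidx, if_neg (by lia)]; lia
    rw [this]; exact h3

theorem card_PI (i k : ℕ) : ((PI i k).card : ℝ) ≤ 17 * 2 ^ (i - k) := by
  rw [PI, Int.card_Icc]
  have : ((rad i k : ℤ) + 1 - -(rad i k : ℤ)).toNat = 2 * rad i k + 1 := by lia
  rw [this, rad]
  push_cast
  have : (1 : ℝ) ≤ 2 ^ (i - k) := one_le_pow₀ (by norm_num)
  linarith

theorem dK_zero {M : ℕ → ℂ} {i k : ℕ} (h : Jset M i = ∅) (p : ℤ) : dK M i k p = 0 := by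
  have h1 := rr_le (g := rg M i) le_rfl (fun u => by rw [rg_zero h]; simp) (i + 1) k p
  rw [mul_zero, zero_mul] at h1
  exact norm_le_zero_iff.1 h1

theorem dK_sum_le {M : ℕ → ℂ} (hM : ∀ r, ‖M r‖ ≤ 1) {i k : ℕ} (hk : k ≤ i) :
    ∑ p ∈ PI i k, ‖dK M i k p‖ ^ 2 ≤ 300000 * (1 / 4) ^ (i - k) * (Jset M i).card := by
  rcases (Jset M i).eq_empty_or_nonempty with h0 | h0
  · rw [sum_eq_zero fun p _ => by rw [dK_zero h0]; simp, h0]
    simp
  have hJ : (1 : ℝ) ≤ (Jset M i).card := by exact_mod_cast h0.card_pos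
  have key : ∀ p, ‖dK M i k p‖ ^ 2 ≤ (120 * (1 / 4) ^ (i - k)) ^ 2 +
      (if p ∈ bad M i k then (48 * (1 / 2) ^ (i - k)) ^ 2 else 0) := by
    intro p
    split_ifs with hp
    · have h1 := rr_le (g := rg M i) (G := 4 * (1 / 2) ^ i) (by positivity) (rg_le hM i) (i + 1) k p
      have e : (12 : ℝ) * (4 * (1 / 2) ^ i) * 2 ^ k = 48 * (1 / 2) ^ (i - k) := by
        rw [← pow_aux2 hk]; ring
      rw [e] at h1
      have h2 : ‖dK M i k p‖ ^ 2 ≤ (48 * (1 / 2) ^ (i - k)) ^ 2 :=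
        pow_le_pow_left₀ (norm_nonneg _) h1 2
      have h3 : (0 : ℝ) ≤ (120 * (1 / 4) ^ (i - k)) ^ 2 := by positivity
      linarith
    · have h1 := rr_good (g := rg M i) (by positivity) (Nat.lt_succ_of_le hk) (good_of_not_bad hM hp)
      have e : (6 : ℝ) * (20 * (1 / 4) ^ i) * 4 ^ k = 120 * (1 / 4) ^ (i - k) := by
        rw [← pow_aux hk]; ring
      rw [e] at h1
      rw [add_zero]
      exact pow_le_pow_left₀ (norm_nonneg _) h1 2
  have e4 : ((1 : ℝ) / 2) ^ (i - k) * (1 / 2) ^ (i - k) = (1 / 4) ^ (i - k) := by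
    rw [← mul_pow]; norm_num
  have e2 : ((1 : ℝ) / 4) ^ (i - k) * 2 ^ (i - k) ≤ 1 := by
    rw [← mul_pow]
    exact pow_le_one₀ (by norm_num) (by norm_num)
  have hq : (0 : ℝ) ≤ (1 / 4) ^ (i - k) := by positivity
  calc ∑ p ∈ PI i k, ‖dK M i k p‖ ^ 2 ≤ ∑ p ∈ PI i k, ((120 * (1 / 4) ^ (i - k)) ^ 2 +
      (if p ∈ bad M i k then (48 * (1 / 2) ^ (i - k)) ^ 2 else 0)) := sum_le_sum fun p _ => key p
    _ = (PI i k).card * (120 * (1 / 4) ^ (i - k)) ^ 2 +
        ((PI i k).filter fun p => p ∈ bad M i k).card * (48 * (1 / 2) ^ (i - k)) ^ 2 := by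
        rw [sum_add_distrib, sum_const, ← sum_filter, sum_const, nsmul_eq_mul, nsmul_eq_mul]
    _ ≤ (17 * 2 ^ (i - k)) * (120 * (1 / 4) ^ (i - k)) ^ 2 +
        (16 * (Jset M i).card) * (48 * (1 / 2) ^ (i - k)) ^ 2 := by
        refine add_le_add (mul_le_mul_of_nonneg_right (card_PI i k) (by positivity))
          (mul_le_mul_of_nonneg_right ?_ (by positivity))
        refine le_trans ?_ (bad_card M i k)
        have : ((PI i k).filter fun p => p ∈ bad M i k).card ≤ (bad M i k).card :=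
          card_le_card fun p hp => (mem_filter.1 hp).2
        exact_mod_cast this
    _ = 244800 * (((1 : ℝ) / 4) ^ (i - k) * 2 ^ (i - k)) * (1 / 4) ^ (i - k) +
        36864 * ((1 / 2) ^ (i - k) * (1 / 2) ^ (i - k)) * (Jset M i).card := by ring
    _ ≤ 244800 * 1 * (1 / 4) ^ (i - k) * (Jset M i).card +
        36864 * (1 / 4) ^ (i - k) * (Jset M i).card := by
        rw [e4]
        have h1 : 244800 * (((1 : ℝ) / 4) ^ (i - k) * 2 ^ (i - k)) * (1 / 4) ^ (i - k) ≤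
            244800 * 1 * (1 / 4) ^ (i - k) :=
          mul_le_mul_of_nonneg_right (mul_le_mul_of_nonneg_left e2 (by norm_num)) hq
        have h2 : (244800 : ℝ) * 1 * (1 / 4) ^ (i - k) ≤
            244800 * 1 * (1 / 4) ^ (i - k) * (Jset M i).card :=
          le_mul_of_one_le_right (by positivity) hJ
        linarith
    _ ≤ 300000 * (1 / 4) ^ (i - k) * (Jset M i).card := by
        have : (0 : ℝ) ≤ (1 / 4) ^ (i - k) * (Jset M i).card := by positivity
        linarith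

theorem dK_high {M : ℕ → ℂ} (hM : ∀ r, ‖M r‖ ≤ 1) {i k : ℕ} (hk : i < k) (p : ℤ) :
    ‖dK M i k p‖ ≤ 1152 * (1 / 2) ^ (k - i) := rr_high (rg_adm M i) (rg_le hM i) hk p

theorem dK_sum_high {M : ℕ → ℂ} (hM : ∀ r, ‖M r‖ ≤ 1) {i k : ℕ} (hk : i < k) :
    ∑ p ∈ PI i k, ‖dK M i k p‖ ^ 2 ≤ 30000000 * (1 / 4) ^ (k - i) * (Jset M i).card := by
  rcases (Jset M i).eq_empty_or_nonempty with h0 | h0
  · rw [sum_eq_zero fun p _ => by rw [dK_zero h0]; simp, h0]
    simp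
  have hJ : (1 : ℝ) ≤ (Jset M i).card := by exact_mod_cast h0.card_pos
  have e4 : ((1 : ℝ) / 2) ^ (k - i) * (1 / 2) ^ (k - i) = (1 / 4) ^ (k - i) := by
    rw [← mul_pow]; norm_num
  have hc := card_PI i k
  rw [show i - k = 0 by lia, pow_zero, mul_one] at hc
  calc ∑ p ∈ PI i k, ‖dK M i k p‖ ^ 2 ≤ ∑ _p ∈ PI i k, (1152 * (1 / 2 : ℝ) ^ (k - i)) ^ 2 :=
        sum_le_sum fun p _ => pow_le_pow_left₀ (norm_nonneg _) (dK_high hM hk p) 2
    _ = (PI i k).card * (1152 * (1 / 2 : ℝ) ^ (k - i)) ^ 2 := by rw [sum_const, nsmul_eq_mul]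
    _ ≤ 17 * (1152 * (1 / 2 : ℝ) ^ (k - i)) ^ 2 := mul_le_mul_of_nonneg_right hc (by positivity)
    _ = 22560768 * ((1 / 2) ^ (k - i) * (1 / 2) ^ (k - i)) := by ring
    _ ≤ 30000000 * (1 / 4) ^ (k - i) * 1 := by
        rw [e4]
        have : (0 : ℝ) ≤ (1 / 4) ^ (k - i) := by positivity
        linarith
    _ ≤ _ := mul_le_mul_of_nonneg_left hJ (by positivity)

/-- each jump is seen by two shells -/
theorem sum_Jset_le (M : ℕ → ℂ) (W I : ℕ) (hW : ∀ r, W ≤ r → M r = 0) :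
    ∑ i ∈ range I, (Jset M i).card ≤ 2 * ((range W).filter fun r => M (r + 1) ≠ M r).card := by
  classical
  -- count pairs
  have h1 : ∀ i, (Jset M i).card = ∑ s ∈ (range W).filter (fun r => M (r + 1) ≠ M r),
      if s ∈ Jset M i then 1 else 0 := by
    intro i
    rw [sum_boole]
    have : (Jset M i) = (((range W).filter fun r => M (r + 1) ≠ M r).filter fun s => s ∈ Jset M i) := by
      ext s
      simp only [mem_filter, mem_range]
      constructor
      · intro hs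
        have hs' := mem_Jset.1 hs
        refine ⟨⟨?_, hs'.2.2⟩, hs⟩
        by_contra h
        push Not at h
        exact hs'.2.2 (by rw [hW s h, hW (s + 1) (by lia)])
      · exact fun hs => hs.2
    conv_lhs => rw [this]
    simp
  simp only [h1]
  rw [sum_comm]
  have h2 : ∀ s ∈ (range W).filter (fun r => M (r + 1) ≠ M r),
      (∑ i ∈ range I, if s ∈ Jset M i then 1 else 0) ≤ 2 := by
    intro s _
    rw [sum_boole]
    have hsub : ((range I).filter fun i => s ∈ Jset M i) ⊆ {Nat.log 2 s, Nat.log 2 s + 1} := by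
      intro i hi
      rw [mem_filter] at hi
      have hs' := mem_Jset.1 hi.2
      rw [mem_insert, mem_singleton]
      have hs0 : s ≠ 0 := by
        rintro rfl
        have : 0 < 2 ^ i := by positivity
        lia
      have a1 : Nat.log 2 s < i + 1 := (Nat.log_lt_iff_lt_pow (by norm_num) hs0).2 hs'.1
      have a2 : i ≤ Nat.log 2 s + 1 := by
        rcases Nat.eq_zero_or_pos i with rfl | hi0
        · lia
        · obtain ⟨j, rfl⟩ : ∃ j, i = j + 1 := ⟨i - 1, by lia⟩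
          have : 2 ^ j ≤ s := by
            have := hs'.2.1
            rw [pow_succ] at this
            lia
          have := (Nat.le_log_iff_pow_le (by norm_num) hs0).2 this
          lia
      lia
    have := card_le_card hsub
    refine le_trans ?_ (le_trans this card_le_two)
    simp
  calc _ ≤ ∑ s ∈ (range W).filter (fun r => M (r + 1) ≠ M r), 2 := sum_le_sum h2
    _ = _ := by rw [sum_const, smul_eq_mul, mul_comm]

/-! ### The main identity -/

theorem kernel_sum {M : ℕ → ℂ} {W I : ℕ} (hW : ∀ r, W ≤ r → M r = 0) (hI : W ≤ 2 ^ I) (T : ℤ → ℂ) :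
    ∑ r ∈ Ico 1 W, M r / r * (T r - T (-r)) =
      ∑ i ∈ range (I + 1), (M (2 ^ i) * pr (kap i) T + pr (rg M i) T) := by
  have h1 : ∀ i ∈ range (I + 1), M (2 ^ i) * pr (kap i) T + pr (rg M i) T =
      ∑ r ∈ Ico 1 W, M r * (wt i r : ℂ) * (T r - T (-r)) := by
    intro i _
    rw [kap, rg, pr_ker, pr_ker, mul_sum, ← sum_add_distrib]
    have h2 : ∀ r ∈ Ico 1 (2 ^ (i + 1)), M (2 ^ i) * ((wt i r : ℂ) * (T r - T (-r))) +
        rw' M i r * (T r - T (-r)) = M r * (wt i r : ℂ) * (T r - T (-r)) := by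
      intro r _
      rw [rw']; ring
    rw [sum_congr rfl h2]
    -- both sums agree with the sum over the union
    have h3 : ∑ r ∈ Ico 1 (2 ^ (i + 1)), M r * (wt i r : ℂ) * (T r - T (-r)) =
        ∑ r ∈ Ico 1 (max (2 ^ (i + 1)) W), M r * (wt i r : ℂ) * (T r - T (-r)) := by
      refine sum_subset (Ico_subset_Ico le_rfl (le_max_left _ _)) fun r hr hr' => ?_
      rw [mem_Ico] at hr hr'
      rw [kwR i r (by lia)]; ring
    have h4 : ∑ r ∈ Ico 1 W, M r * (wt i r : ℂ) * (T r - T (-r)) =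
        ∑ r ∈ Ico 1 (max (2 ^ (i + 1)) W), M r * (wt i r : ℂ) * (T r - T (-r)) := by
      refine sum_subset (Ico_subset_Ico le_rfl (le_max_right _ _)) fun r hr hr' => ?_
      rw [mem_Ico] at hr hr'
      rw [hW r (by lia)]; ring
    rw [h3, h4]
  rw [sum_congr rfl h1, sum_comm]
  refine sum_congr rfl fun r hr => ?_
  rw [mem_Ico] at hr
  rw [← sum_mul, ← mul_sum]
  congr 1
  have h5 : (∑ i ∈ range (I + 1), (wt i r : ℂ)) = ((r : ℂ))⁻¹ := by
    have h6 : (∑ i ∈ range (I + 1), wt i r) = ((r : ℝ))⁻¹ := by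
      simp only [wt]
      rw [← sum_div, sum_chi, psi_eq_one (by lia), one_div]
    have := congrArg (fun x : ℝ => (x : ℂ)) h6
    simpa using this
  rw [h5]
  rfl

/-- **main decomposition** (S5) -/
theorem main_decomp {M : ℕ → ℂ} (hM : ∀ r, ‖M r‖ ≤ 1) {W I : ℕ} (hW : ∀ r, W ≤ r → M r = 0)
    (hI : W ≤ 2 ^ I) {T : ℤ → ℂ} {B : ℝ} (hT : ∀ v, ‖T v‖ ≤ B) {K : ℕ} (hK : I + 2 ≤ K) :
    ‖(∑ r ∈ Ico 1 W, M r / r * (T r - T (-r))) -
      ∑ i ∈ range (I + 1), ∑ k ∈ range K, ∑ p ∈ PI i k,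
        (M (2 ^ i) * cK i k p + dK M i k p) * Hh T k p‖ ≤
      (I + 1) * (600 * B * 2 ^ I * (1 / 2) ^ K) := by
  have hB : 0 ≤ B := (norm_nonneg _).trans (hT 0)
  rw [kernel_sum hW hI, ← sum_sub_distrib]
  refine (norm_sum_le _ _).trans ?_
  have key : ∀ i ∈ range (I + 1), ‖M (2 ^ i) * pr (kap i) T + pr (rg M i) T -
      ∑ k ∈ range K, ∑ p ∈ PI i k, (M (2 ^ i) * cK i k p + dK M i k p) * Hh T k p‖ ≤
      600 * B * 2 ^ I * (1 / 2) ^ K := by
    intro i hi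
    rw [mem_range] at hi
    obtain ⟨l, hl⟩ := Nat.exists_eq_add_of_le (show i + 2 ≤ K by lia)
    have d1 := decomp (kap_adm i) T K (by lia)
    have d2 := decomp (rg_adm M i) T K (by lia)
    have s1 : ∀ k, pr (rr (kap i) (i + 1) k) (Hh T k) = ∑ p ∈ PI i k, cK i k p * Hh T k p :=
      fun k => pr_eq_sum (fun m hm => rr_supp' (kap_adm i) k hm) _
    have s2 : ∀ k, pr (rr (rg M i) (i + 1) k) (Hh T k) = ∑ p ∈ PI i k, dK M i k p * Hh T k p :=
      fun k => pr_eq_sum (fun m hm => rr_supp' (rg_adm M i) k hm) _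
    have e : M (2 ^ i) * pr (kap i) T + pr (rg M i) T -
        ∑ k ∈ range K, ∑ p ∈ PI i k, (M (2 ^ i) * cK i k p + dK M i k p) * Hh T k p =
        M (2 ^ i) * pr (zp (kap i) (i + 1) K) (D T K) + pr (zp (rg M i) (i + 1) K) (D T K) := by
      rw [d1, d2]
      simp only [s1, s2]
      have : ∑ k ∈ range K, ∑ p ∈ PI i k, (M (2 ^ i) * cK i k p + dK M i k p) * Hh T k p =
          M (2 ^ i) * ∑ k ∈ range K, ∑ p ∈ PI i k, cK i k p * Hh T k p +
          ∑ k ∈ range K, ∑ p ∈ PI i k, dK M i k p * Hh T k p := by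
        rw [mul_sum, ← sum_add_distrib]
        refine sum_congr rfl fun k _ => ?_
        rw [mul_sum, ← sum_add_distrib]
        exact sum_congr rfl fun p _ => by ring
      rw [this]
      ring
    rw [e]
    refine (norm_add_le _ _).trans ?_
    rw [norm_mul]
    have r1 := rem_le (g := kap i) (G := 2 * (1 / 2) ^ i) (by positivity) (kap_le i) (kap_adm i) hT l
    have r2 := rem_le (g := rg M i) (G := 4 * (1 / 2) ^ i) (by positivity) (rg_le hM i) (rg_adm M i) hT l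
    rw [← hl] at r1 r2
    have h1 := hM (2 ^ i)
    have n1 := norm_nonneg (pr (zp (kap i) (i + 1) K) (D T K))
    have e1 : ((1 : ℝ) / 2) ^ i * 2 ^ i = 1 := by rw [← mul_pow]; norm_num
    have e2 : ((1 : ℝ) / 2) ^ l = 4 * 2 ^ i * (1 / 2) ^ K := by
      rw [hl, pow_add, pow_add]
      linear_combination (-(1 / 2 : ℝ) ^ l) * e1
    have e3 : (2 : ℝ) ^ i ≤ 2 ^ I := pow_le_pow_right₀ (by norm_num) (by lia)
    have e4 : (12 : ℝ) * B * (2 * (1 / 2) ^ i) * 2 ^ (i + 1) * (1 / 2) ^ l = 192 * B * 2 ^ i * (1 / 2) ^ K := by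
      rw [e2, pow_succ]
      linear_combination (192 * B * 2 ^ i * (1 / 2 : ℝ) ^ K) * e1
    have e5 : (12 : ℝ) * B * (4 * (1 / 2) ^ i) * 2 ^ (i + 1) * (1 / 2) ^ l = 384 * B * 2 ^ i * (1 / 2) ^ K := by
      rw [e2, pow_succ]
      linear_combination (384 * B * 2 ^ i * (1 / 2 : ℝ) ^ K) * e1
    rw [e4] at r1
    rw [e5] at r2
    have h2 : B * 2 ^ i * (1 / 2) ^ K ≤ B * 2 ^ I * (1 / 2) ^ K :=
      mul_le_mul_of_nonneg_right (mul_le_mul_of_nonneg_left e3 hB) (by positivity)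
    have h3 : 0 ≤ B * 2 ^ I * (1 / 2) ^ K := by positivity
    have h4 : ‖M (2 ^ i)‖ * ‖pr (zp (kap i) (i + 1) K) (D T K)‖ ≤
        1 * (192 * B * 2 ^ i * (1 / 2) ^ K) := mul_le_mul h1 r1 n1 zero_le_one
    linarith
  refine (sum_le_sum key).trans (le_of_eq ?_)
  rw [sum_const, card_range, nsmul_eq_mul]
  push_cast
  ring

end Crest.Agent.R72.KZ
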