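import Crest.Agent.R72.LABox
import Crest.Agent.R72.D7

/-!
# Row 72, S0097: `LaBox` (helper12)
-/

set_option autoImplicit false
set_option linter.unusedSectionVars false

open Finset Matrix

namespace Crest.Agent.R72

theorem laBox : LaBox := fun ι _ _ A B C => la_box A B C

theorem boxIneq : BoxIneq := box_of_laBox laBox

end Crest.Agent.R72
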